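import Vale.Agent.P133.H330.GlueR
import Vale.Agent.P133.H681.Generic

/-!
P133 (helper330): annihilators of closed ideals.
-/

open scoped ComplexOrder

namespace Vale.Agent.P133.H330

open Vale.Agent.P133 Vale.Agent.P133F Vale.Agent.P133.Statement Vale.Agent.P133.H832
  Vale.Agent.P133.H681

universe u

section defs

variable {A : Type u} [NonUnitalCStarAlgebra A]

/-- the (left) annihilator of `I`; for a closed ideal it is two-sided -/
def Ann (I : Submodule ℂ A) : Submodule ℂ A where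
  carrier := {x | ∀ y ∈ I, x * y = 0}
  zero_mem' := fun y _ => zero_mul y
  add_mem' := fun {p q} hp hq y hy => by rw [add_mul, hp y hy, hq y hy, add_zero]
  smul_mem' := fun c x hx y hy => by rw [smul_mul_assoc, hx y hy, smul_zero]

theorem mem_ann {I : Submodule ℂ A} {x : A} : x ∈ Ann I ↔ ∀ y ∈ I, x * y = 0 := Iff.rfl

/-- `E` is an essential ideal: nothing but `0` is orthogonal to it -/
def Ess (E : Submodule ℂ A) : Prop := ∀ x : A, (∀ y ∈ E, x * y = 0) → x = 0

theorem ess_mono {E E' : Submodule ℂ A} (h : E ≤ E') (hE : Ess E) : Ess E' :=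
  fun x hx => hE x fun y hy => hx y (h hy)

theorem ann_mono {I J : Submodule ℂ A} (h : I ≤ J) : Ann J ≤ Ann I :=
  fun _ hx y hy => hx y (h hy)

theorem isClosedIdeal_ann {I : Submodule ℂ A} (hI : IsClosedIdeal I) : IsClosedIdeal (Ann I) := by
  refine ⟨?_, fun a x hx => ⟨fun y hy => ?_, fun y hy => ?_⟩⟩
  · have h1 : ((Ann I : Submodule ℂ A) : Set A) = ⋂ y ∈ I, {x : A | x * y = 0} := by
      ext x
      simp only [Set.mem_iInter]
      exact Iff.rfl
    rw [h1]
    refine isClosed_biInter fun y _ => isClosed_eq (by fun_prop) continuous_const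
  · rw [mul_assoc, hx y hy, mul_zero]
  · rw [mul_assoc]; exact hx _ (hI.2 a y hy).1

end defs

section

variable {A : Type u} [NonUnitalCStarAlgebra A] [PartialOrder A] [StarOrderedRing A]

theorem eq_zero_of_mem_ann {I : Submodule ℂ A} (hI : IsClosedIdeal I) {x : A} (hx : x ∈ I)
    (hx' : x ∈ Ann I) : x = 0 := by
  have h1 : star x ∈ Ann I := (isClosedIdeal_ann hI).star_mem hx'
  have h2 : star x * x = 0 := h1 x hx
  exact CStarRing.star_mul_self_eq_zero_iff x |>.1 h2

theorem ann_comm {I : Submodule ℂ A} (hI : IsClosedIdeal I) {x y : A} (hx : x ∈ Ann I)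
    (hy : y ∈ I) : y * x = 0 :=
  eq_zero_of_mem_ann hI (hI.2 x y hy).2 ((isClosedIdeal_ann hI).2 y x hx).1

/-- membership in the annihilator from the other side -/
theorem mem_ann_of_right {I : Submodule ℂ A} (hI : IsClosedIdeal I) {x : A}
    (hx : ∀ y ∈ I, y * x = 0) : x ∈ Ann I := by
  have h1 : star x ∈ Ann I := fun y hy => by
    have h2 := hx _ (hI.star_mem hy)
    have h3 := congrArg star h2
    rwa [star_mul, star_star, star_zero] at h3
  have h2 := (isClosedIdeal_ann hI).star_mem h1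
  rwa [star_star] at h2

omit [PartialOrder A] [StarOrderedRing A] in
theorem isClosedIdeal_sup {I J : Submodule ℂ A} (hI : IsClosedIdeal I) (hJ : IsClosedIdeal J) :
    IsClosedIdeal (I ⊔ J).topologicalClosure := by
  refine isClosedIdeal_closure fun a x hx => ?_
  obtain ⟨y, hy, z, hz, rfl⟩ := Submodule.mem_sup.1 hx
  exact ⟨by rw [mul_add]; exact Submodule.add_mem_sup (hI.2 a y hy).1 (hJ.2 a z hz).1,
    by rw [add_mul]; exact Submodule.add_mem_sup (hI.2 a y hy).2 (hJ.2 a z hz).2⟩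

omit [PartialOrder A] [StarOrderedRing A] in
theorem isClosedIdeal_inf {I J : Submodule ℂ A} (hI : IsClosedIdeal I) (hJ : IsClosedIdeal J) :
    IsClosedIdeal (I ⊓ J) :=
  ⟨hI.1.inter hJ.1, fun a x hx => ⟨⟨(hI.2 a x hx.1).1, (hJ.2 a x hx.2).1⟩,
    ⟨(hI.2 a x hx.1).2, (hJ.2 a x hx.2).2⟩⟩⟩

omit [PartialOrder A] [StarOrderedRing A] in
theorem le_closure_left (I J : Submodule ℂ A) : I ≤ (I ⊔ J).topologicalClosure :=
  le_sup_left.trans (Submodule.le_topologicalClosure _)

omit [PartialOrder A] [StarOrderedRing A] in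
theorem le_closure_right (I J : Submodule ℂ A) : J ≤ (I ⊔ J).topologicalClosure :=
  le_sup_right.trans (Submodule.le_topologicalClosure _)

omit [PartialOrder A] [StarOrderedRing A] in
/-- a continuous condition on the closure -/
theorem mem_ann_closure {N : Submodule ℂ A} {x : A} (h : ∀ y ∈ N, x * y = 0) :
    x ∈ Ann N.topologicalClosure := by
  intro y hy
  have h1 : IsClosed {y : A | x * y = 0} := isClosed_eq (by fun_prop) continuous_const
  have h2 : (N : Set A) ⊆ {y : A | x * y = 0} := fun y hy => h y hy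
  exact (closure_minimal h2 h1) hy

omit [PartialOrder A] [StarOrderedRing A] in
theorem mem_ann_sup {I J : Submodule ℂ A} {x : A} (h1 : x ∈ Ann I) (h2 : x ∈ Ann J) :
    x ∈ Ann (I ⊔ J).topologicalClosure := by
  refine mem_ann_closure fun y hy => ?_
  obtain ⟨p, hp, q, hq, rfl⟩ := Submodule.mem_sup.1 hy
  rw [mul_add, h1 p hp, h2 q hq, add_zero]

omit [PartialOrder A] [StarOrderedRing A] in
theorem ann_sup {I J : Submodule ℂ A} {x : A} :
    x ∈ Ann (I ⊔ J).topologicalClosure ↔ x ∈ Ann I ∧ x ∈ Ann J :=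
  ⟨fun h => ⟨ann_mono (le_closure_left I J) h, ann_mono (le_closure_right I J) h⟩,
    fun h => mem_ann_sup h.1 h.2⟩

theorem ess_sup_ann {I : Submodule ℂ A} (hI : IsClosedIdeal I) :
    Ess (I ⊔ Ann I).topologicalClosure := by
  intro x hx
  have h1 := ann_sup.1 (show x ∈ Ann (I ⊔ Ann I).topologicalClosure from hx)
  exact eq_zero_of_mem_ann (isClosedIdeal_ann hI) h1.1 h1.2

/-- if `I ⊆ I'`, then `closure (I + Ann I') ∩ Ann I ⊆ Ann I'` -/
theorem mem_ann_of_mem {I I' : Submodule ℂ A} (hI : IsClosedIdeal I) (hI' : IsClosedIdeal I')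
    {z : A} (hz : z ∈ (I ⊔ Ann I').topologicalClosure) (hz' : z ∈ Ann I) : z ∈ Ann I' := by
  have hA' := isClosedIdeal_ann hI'
  have hs : star z ∈ Ann I := (isClosedIdeal_ann hI).star_mem hz'
  refine hA'.of_star_mul_self ?_
  have h1 : IsClosed {y : A | star z * y ∈ Ann I'} := hA'.1.preimage (by fun_prop)
  have h2 : ((I ⊔ Ann I' : Submodule ℂ A) : Set A) ⊆ {y : A | star z * y ∈ Ann I'} := by
    intro y hy
    obtain ⟨p, hp, q, hq, rfl⟩ := Submodule.mem_sup.1 hy
    show star z * (p + q) ∈ Ann I'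
    rw [mul_add, hs p hp, zero_add]
    exact (hA'.2 (star z) q hq).1
  exact (closure_minimal h2 h1) hz

/-- `D` essential in `⟨y⟩`: then `D + Ann ⟨y⟩` is essential -/
theorem ess_of_essentialIn {D Y : Submodule ℂ A} {y : A} (hD : IsClosedIdeal D)
    (hY : IsClosedIdeal Y) (hYy : ∀ z, z ∈ Y ↔ InId y z) (h : IsEssentialIn D y) :
    Ess (D ⊔ Ann Y).topologicalClosure := by
  intro x hx
  have h1 := ann_sup.1 (show x ∈ Ann (D ⊔ Ann Y).topologicalClosure from hx)
  have h2 : ∀ z ∈ Ann D ⊓ Y, z = 0 := h.2 (Ann D ⊓ Y)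
    (isClosedIdeal_inf (isClosedIdeal_ann hD) hY) (fun z hz => (hYy z).1 hz.2)
    fun z hz hzD => eq_zero_of_mem_ann hD hzD hz.1
  have h3 : x ∈ Ann Y := fun w hw =>
    h2 _ ⟨((isClosedIdeal_ann hD).2 w x h1.1).2, (hY.2 x w hw).1⟩
  exact eq_zero_of_mem_ann (isClosedIdeal_ann hY) h3 h1.2

theorem norm_le_sub {w z : A} (h : star w * z = 0) : ‖w‖ ≤ ‖w - z‖ := by
  have h' : star z * w = 0 := by
    have h3 := congrArg star h
    rwa [star_mul, star_star, star_zero] at h3
  have h1 : star (w - z) * (w - z) = star w * w + star z * z := by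
    rw [star_sub, sub_mul, mul_sub, mul_sub, h, h']; abel
  have h2 : ‖star w * w‖ ≤ ‖star (w - z) * (w - z)‖ := by
    rw [h1]
    exact CStarAlgebra.norm_le_norm_of_nonneg_of_le (star_mul_self_nonneg w)
      (le_add_of_nonneg_right (star_mul_self_nonneg z))
  rw [CStarRing.norm_star_mul_self, CStarRing.norm_star_mul_self] at h2
  exact (mul_self_le_mul_self_iff (norm_nonneg _) (norm_nonneg _)).2 h2

/-- `Ann I ∩ ⟨a⟩ = 0` and rows modulo `Ann I` for elements of `⟨a⟩`: rows -/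
theorem rowsMod_of_ann {I : Submodule ℂ A} (hI : IsClosedIdeal I) {a b : A}
    (hab : InId a b) (h0 : ∀ t ∈ Ann I, InId a t → t = 0) {m : ℕ} {ε : ℝ}
    (h : RowsMod (Ann I) a b m ε) : RowsMod (⊥ : Submodule ℂ A) a b m ε := by
  obtain ⟨r, z, hz, hr⟩ := h
  obtain ⟨Ia, hIa, hIa'⟩ := isClosedIdeal_inId a
  refine ⟨r, fun _ _ => 0, fun _ _ => Submodule.zero_mem _, fun i j => ?_⟩
  rw [sub_zero]
  refine lt_of_le_of_lt (norm_le_sub (z := z i j) ?_) (hr i j)
  have h1 : star (r i) * a * r j - (if i = j then b else 0) ∈ Ia := by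
    refine Ia.sub_mem ((hIa' _).2 (InId.term a (star (r i)) (r j))) ?_
    split_ifs
    · exact (hIa' _).2 hab
    · exact Ia.zero_mem
  refine h0 _ ((isClosedIdeal_ann hI).2 _ _ (hz i j)).1 ((hIa' _).1 ?_)
  exact (hIa.2 (z i j) _ (hIa.star_mem h1)).2

omit [PartialOrder A] [StarOrderedRing A] in
/-- rows modulo `closure (sSup 𝒞) + K` are rows modulo `closure (I + K)` for some `I` in the
chain `𝒞` -/
theorem rowsMod_chain {C : Set (Submodule ℂ A)} (hne : C.Nonempty)
    (hch : DirectedOn (· ≤ ·) C) {K : Submodule ℂ A} {a b : A} {m : ℕ} {ε : ℝ}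
    (h : RowsMod ((sSup C).topologicalClosure ⊔ K).topologicalClosure a b m ε) :
    ∃ I ∈ C, RowsMod (I ⊔ K).topologicalClosure a b m ε := by
  obtain ⟨r, z, hz, hr⟩ := h
  -- each entry is a limit of elements of some `I + K`
  have h1 : ∀ x, x ∈ sSup C ↔ ∃ P ∈ C, x ∈ P := fun x =>
    Submodule.mem_sSup_of_directed hne hch
  have h2 : ∀ (w : A), w ∈ ((sSup C).topologicalClosure ⊔ K).topologicalClosure →
      ∀ η : ℝ, 0 < η → ∃ P ∈ C, ∃ w' ∈ P ⊔ K, ‖w - w'‖ < η := by
    intro w hw η hη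
    obtain ⟨v, hv, hwv⟩ := Metric.mem_closure_iff.1 hw (η / 2) (half_pos hη)
    obtain ⟨p, hp, q, hq, rfl⟩ := Submodule.mem_sup.1 hv
    obtain ⟨p', hp', hpp⟩ := Metric.mem_closure_iff.1 hp (η / 2) (half_pos hη)
    obtain ⟨P, hP, hpP⟩ := (h1 p').1 hp'
    refine ⟨P, hP, p' + q, Submodule.add_mem_sup hpP hq, ?_⟩
    rw [dist_eq_norm] at hwv hpp
    calc ‖w - (p' + q)‖ = ‖(w - (p + q)) + (p - p')‖ := by congr 1; abel
      _ ≤ ‖w - (p + q)‖ + ‖p - p'‖ := norm_add_le _ _
      _ < η := by linarith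
  -- the slack of each entry
  choose P hPC w' hw' hww using fun k : Fin m × Fin m => h2 (z k.1 k.2) (hz k.1 k.2)
    ((ε - ‖star (r k.1) * a * r k.2 - (if k.1 = k.2 then b else 0) - z k.1 k.2‖))
    (by have := hr k.1 k.2; linarith)
  obtain ⟨Q, hQ, hQP⟩ : ∃ Q ∈ C, ∀ k, P k ≤ Q := by
    have h3 : ∀ S : Finset (Fin m × Fin m), ∃ Q ∈ C, ∀ k ∈ S, P k ≤ Q := by
      intro S
      induction S using Finset.induction_on with
      | empty => obtain ⟨Q, hQ⟩ := hne; exact ⟨Q, hQ, fun k hk => absurd hk (Finset.notMem_empty k)⟩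
      | insert k S hk ih =>
        obtain ⟨Q, hQ, hQS⟩ := ih
        obtain ⟨Q', hQ', h4, h5⟩ := hch Q hQ (P k) (hPC k)
        refine ⟨Q', hQ', fun l hl => ?_⟩
        rcases Finset.mem_insert.1 hl with rfl | hl
        · exact h5
        · exact (hQS l hl).trans h4
    obtain ⟨Q, hQ, h4⟩ := h3 Finset.univ
    exact ⟨Q, hQ, fun k => h4 k (Finset.mem_univ k)⟩
  refine ⟨Q, hQ, r, fun i j => w' (i, j), fun i j =>
    Submodule.le_topologicalClosure _ (sup_le_sup_right (hQP (i, j)) K (hw' (i, j))),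
    fun i j => ?_⟩
  have h5 := hww (i, j)
  calc ‖star (r i) * a * r j - (if i = j then b else 0) - w' (i, j)‖ =
        ‖(star (r i) * a * r j - (if i = j then b else 0) - z i j) + (z i j - w' (i, j))‖ := by
        congr 1; abel
    _ ≤ ‖star (r i) * a * r j - (if i = j then b else 0) - z i j‖ + ‖z i j - w' (i, j)‖ :=
        norm_add_le _ _
    _ < ε := by linarith

end

end Vale.Agent.P133.H330
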