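import Vale.Agent.P133.H832.Glu2

/-!
P133 (helper330): gluing along a closed subset of the primitive ideal space, relative to a
closed ideal and local in the tolerance.
-/

open scoped ComplexOrder

namespace Vale.Agent.P133.H330

open Vale.Agent.P133 Vale.Agent.P133F Vale.Agent.P133.Statement Vale.Agent.P133.H832

universe u

/-- `m` rows which show, up to `ε`, that the `m`-fold multiple of `b` is below `a` modulo the
ideal `K` -/
def RowsMod {A : Type u} [NonUnitalCStarAlgebra A] (K : Submodule ℂ A) (a b : A) (m : ℕ)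
    (ε : ℝ) : Prop :=
  ∃ (r : Fin m → A) (z : Fin m → Fin m → A), (∀ i j, z i j ∈ K) ∧
    ∀ i j, ‖star (r i) * a * r j - (if i = j then b else 0) - z i j‖ < ε

section stages

variable {M : Type u} [CStarAlgebra M] [PartialOrder M] [StarOrderedRing M]

omit [PartialOrder M] [StarOrderedRing M] in
theorem h1n_le (e : M) (he : ‖e‖ ≤ 1) : ‖1 - e‖ ≤ 2 := by
  rcases subsingleton_or_nontrivial M with h | h
  · rw [Subsingleton.elim (1 - e) 0, norm_zero]; norm_num
  · exact (norm_sub_le _ _).trans (by rw [CStarRing.norm_one]; linarith)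

/-- first stage: `L = t g + t' (1 - g)` -/
theorem stage1 {n : ℕ} (I₁ I₂ : CIdeal M)
    {a b : M} (ha : star a = a) (t t' : Fin n → M)
    (z1 z2 y y' : Fin n → Fin n → M) (hz1 : ∀ i j, z1 i j ∈ I₁) (hz2 : ∀ i j, z2 i j ∈ I₂)
    (hy : ∀ i j, y i j ∈ I₂) (hy' : ∀ i j, y' i j ∈ I₂) {η : ℝ}
    (hη : 0 < η) (h1 : ∀ i j, ‖star (t i) * a * t j - (if i = j then b else 0) - y i j‖ ≤ η)
    (h2 : ∀ i j, ‖star (t i) * a * t' j - y' i j‖ ≤ η)
    (h3 : ∀ i j, ‖star (t' i) * a * t' j - (if i = j then b else 0) - (z1 i j + z2 i j)‖ ≤ η) :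
    ∃ g ∈ I₁, star g = g ∧ ‖g‖ ≤ 1 ∧ ∃ ζ : Fin n → Fin n → M, (∀ i j, ζ i j ∈ I₂) ∧ ∀ i j,
      ‖star (t i * g + t' i * (1 - g)) * a * (t j * g + t' j * (1 - g)) -
        (if i = j then g * b * g + (1 - g) * b * (1 - g) else 0) - ζ i j‖ ≤ 11 * η := by
  obtain ⟨g, hg, hgz⟩ := exists_approx_unit (ι := Fin n × Fin n) I₁
    (c := fun k => z1 k.1 k.2) (fun k => hz1 k.1 k.2) hη
  have hgs : star g = g := PC.star_eq hg
  have hgn : ‖g‖ ≤ 1 := PC.norm_le hg
  have h1s : star (1 - g) = 1 - g := by rw [star_sub, star_one, hgs]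
  have h1n : ‖1 - g‖ ≤ 2 := h1n_le g hgn
  refine ⟨g, hg.mem, hgs, hgn, fun i j => (1 - g) * z2 i j * (1 - g) + g * y i j * g +
    g * y' i j * (1 - g) + (1 - g) * star (y' j i) * g,
    fun i j => I₂.add_mem (I₂.add_mem (I₂.add_mem (I₂.right_mem (I₂.left_mem _ (hz2 i j)) _)
      (I₂.right_mem (I₂.left_mem _ (hy i j)) _)) (I₂.right_mem (I₂.left_mem _ (hy' i j)) _))
      (I₂.right_mem (I₂.left_mem _ (I₂.star_mem (hy' j i))) _), fun i j => ?_⟩
  have key : star (t i * g + t' i * (1 - g)) * a * (t j * g + t' j * (1 - g)) -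
      (if i = j then g * b * g + (1 - g) * b * (1 - g) else 0) -
        ((1 - g) * z2 i j * (1 - g) + g * y i j * g +
          g * y' i j * (1 - g) + (1 - g) * star (y' j i) * g) =
      g * (star (t i) * a * t j - (if i = j then b else 0) - y i j) * g +
      g * (star (t i) * a * t' j - y' i j) * (1 - g) +
      (1 - g) * star (star (t j) * a * t' i - y' j i) * g +
      (1 - g) * (star (t' i) * a * t' j - (if i = j then b else 0) - (z1 i j + z2 i j)) *
        (1 - g) + (1 - g) * (z1 i j * (1 - g)) := by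
    have e1 : star (t i * g + t' i * (1 - g)) = g * star (t i) + (1 - g) * star (t' i) := by
      rw [star_add, star_mul, star_mul, hgs, h1s]
    have e2 : star (star (t j) * a * t' i - y' j i) = star (t' i) * a * t j - star (y' j i) := by
      rw [star_sub, star_mul, star_mul, star_star, ha]; simp only [mul_assoc]
    rw [e1, e2]
    split_ifs with hij
    · noncomm_ring
    · noncomm_ring
  rw [key]
  have hm : ∀ (u v w : M) {p q r : ℝ}, ‖u‖ ≤ p → ‖v‖ ≤ q → ‖w‖ ≤ r → 0 ≤ p → 0 ≤ q →
      ‖u * v * w‖ ≤ p * q * r := by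
    intro u v w p q r hu hv hw hp hq
    calc ‖u * v * w‖ ≤ ‖u‖ * ‖v‖ * ‖w‖ := (norm_mul_le _ _).trans (by gcongr; exact norm_mul_le _ _)
      _ ≤ p * q * r := by gcongr
  have b1 := hm g _ g hgn (h1 i j) hgn zero_le_one hη.le
  have b2 := hm g _ (1 - g) hgn (h2 i j) h1n zero_le_one hη.le
  have b3 := hm (1 - g) (star (star (t j) * a * t' i - y' j i)) g h1n
    (by rw [norm_star]; exact h2 j i) hgn (by norm_num) hη.le
  have b4 := hm (1 - g) _ (1 - g) h1n (h3 i j) h1n (by norm_num) hη.le
  have b5 : ‖(1 - g) * (z1 i j * (1 - g))‖ ≤ 2 * η :=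
    (norm_mul_le _ _).trans (mul_le_mul h1n (hgz (i, j)).1.le (norm_nonneg _) (by norm_num))
  calc _ ≤ _ := norm_add_le _ _
    _ ≤ _ := add_le_add_left (norm_add_le _ _) _
    _ ≤ _ := add_le_add_left (add_le_add_left (norm_add_le _ _) _) _
    _ ≤ _ := add_le_add_left (add_le_add_left (add_le_add_left (norm_add_le _ _) _) _) _
    _ ≤ 11 * η := by linarith

/-- second stage: `T = L u + R v`, `u = 1 + h₁ - h₂`, `v = 1 - h₁ + h₂` -/
theorem stage2 {n : ℕ} (I₁ I₂ K : CIdeal M) (h0 : ∀ z, z ∈ I₁ → z ∈ I₂ → z ∈ K)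
    {a QL QR : M} (ha : star a = a) (L R : Fin n → M)
    (ζL ζR ζ1 ζ2 : Fin n → Fin n → M) (hζL : ∀ i j, ζL i j ∈ I₂) (hζR : ∀ i j, ζR i j ∈ I₁)
    (hζ1 : ∀ i j, ζ1 i j ∈ I₁) (hζ2 : ∀ i j, ζ2 i j ∈ I₂) {η : ℝ}
    (hη : 0 < η)
    (h1 : ∀ i j, ‖star (L i) * a * L j - (if i = j then QL else 0) - ζL i j‖ ≤ η)
    (h2 : ∀ i j, ‖star (R i) * a * R j - (if i = j then QR else 0) - ζR i j‖ ≤ η)
    (h3 : ∀ i j, ‖star (L i) * a * R j - (ζ1 i j + ζ2 i j)‖ ≤ η) :
    ∃ u v : M, star u = u ∧ star v = v ∧ u + v = 1 + 1 ∧ ∃ κ : Fin n → Fin n → M,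
      (∀ i j, κ i j ∈ K) ∧ ∀ i j,
      ‖star (L i * u + R i * v) * a * (L j * u + R j * v) -
        (if i = j then u * QL * u + v * QR * v else 0) - κ i j‖ ≤ 54 * η := by
  obtain ⟨g, hg, hgz⟩ := exists_approx_unit (ι := (Fin n × Fin n) ⊕ (Fin n × Fin n)) I₁
    (c := Sum.elim (fun k => ζ1 k.1 k.2) fun k => ζR k.1 k.2)
    (by rintro (k | k); exacts [hζ1 _ _, hζR _ _]) hη
  obtain ⟨h, hh, hhz⟩ := exists_approx_unit (ι := (Fin n × Fin n) ⊕ (Fin n × Fin n)) I₂
    (c := Sum.elim (fun k => ζ2 k.1 k.2) fun k => ζL k.1 k.2)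
    (by rintro (k | k); exacts [hζ2 _ _, hζL _ _]) hη
  have hgs : star g = g := PC.star_eq hg
  have hgn : ‖g‖ ≤ 1 := PC.norm_le hg
  have hhs : star h = h := PC.star_eq hh
  have hhn : ‖h‖ ≤ 1 := PC.norm_le hh
  have h1n : ‖(1 : M)‖ ≤ 1 := by
    rcases subsingleton_or_nontrivial M with h | h
    · rw [Subsingleton.elim (1 : M) 0, norm_zero]; norm_num
    · rw [CStarRing.norm_one]
  set u : M := 1 + g - h with hu
  set v : M := 1 - g + h with hv
  have hus : star u = u := by rw [hu, star_sub, star_add, star_one, hgs, hhs]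
  have hvs : star v = v := by rw [hv, star_add, star_sub, star_one, hgs, hhs]
  have hun : ‖u‖ ≤ 3 := (norm_sub_le _ _).trans (by
    have := norm_add_le (1 : M) g; linarith)
  have hvn : ‖v‖ ≤ 3 := (norm_add_le _ _).trans (by
    have := norm_sub_le (1 : M) g; linarith)
  -- products of elements of `I₁` and `I₂` are in `K`
  have e12 : ∀ z, z ∈ I₁ → z * h ∈ K := fun z hz => h0 _ (I₁.right_mem hz _) (I₂.left_mem _ hh.mem)
  have e21 : ∀ z, z ∈ I₂ → z * g ∈ K := fun z hz => h0 _ (I₁.left_mem _ hg.mem) (I₂.right_mem hz _)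
  have e21' : ∀ z, z ∈ I₂ → g * z ∈ K := fun z hz => h0 _ (I₁.right_mem hg.mem _) (I₂.left_mem _ hz)
  -- the part of the cross term in `K`
  set c : Fin n → Fin n → M := fun i j => u * (ζ1 i j * h) + g * ζ2 i j * v with hc
  have hcK : ∀ i j, c i j ∈ K := fun i j =>
    K.add_mem (K.left_mem _ (e12 _ (hζ1 i j))) (K.right_mem (e21' _ (hζ2 i j)) _)
  have hLR : ∀ i j, ‖u * (star (L i) * a * R j) * v - c i j‖ ≤ 15 * η := by
    intro i j
    have k1 : u * (star (L i) * a * R j) * v - c i j =
        u * (star (L i) * a * R j - (ζ1 i j + ζ2 i j)) * v + u * (ζ1 i j * (1 - g)) +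
          (1 - h) * ζ2 i j * v := by
      simp only [hc, hu, hv]; noncomm_ring
    rw [k1]
    have b1 : ‖u * (star (L i) * a * R j - (ζ1 i j + ζ2 i j)) * v‖ ≤ 3 * η * 3 :=
      (norm_mul_le _ _).trans (mul_le_mul ((norm_mul_le _ _).trans
        (mul_le_mul hun (h3 i j) (norm_nonneg _) (by norm_num))) hvn (norm_nonneg _)
        (by positivity))
    have b2 : ‖u * (ζ1 i j * (1 - g))‖ ≤ 3 * η :=
      (norm_mul_le _ _).trans (mul_le_mul hun (hgz (Sum.inl (i, j))).1.le (norm_nonneg _)
        (by norm_num))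
    have b3 : ‖(1 - h) * ζ2 i j * v‖ ≤ η * 3 :=
      (norm_mul_le _ _).trans (mul_le_mul (hhz (Sum.inl (i, j))).2.le hvn (norm_nonneg _) hη.le)
    calc _ ≤ _ := norm_add_le _ _
      _ ≤ _ := add_le_add_left (norm_add_le _ _) _
      _ ≤ 15 * η := by linarith
  refine ⟨u, v, hus, hvs, by rw [hu, hv]; abel, fun i j => u * (ζL i j * g) + v * (ζR i j * h) +
    c i j + star (c j i), fun i j => K.add_mem (K.add_mem (K.add_mem
      (K.left_mem _ (e21 _ (hζL i j))) (K.left_mem _ (e12 _ (hζR i j)))) (hcK i j))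
      (K.star_mem (hcK j i)), fun i j => ?_⟩
  have key : star (L i * u + R i * v) * a * (L j * u + R j * v) -
      (if i = j then u * QL * u + v * QR * v else 0) -
        (u * (ζL i j * g) + v * (ζR i j * h) + c i j + star (c j i)) =
      (u * (star (L i) * a * L j - (if i = j then QL else 0) - ζL i j) * u +
        u * (ζL i j * (1 - h))) +
      (v * (star (R i) * a * R j - (if i = j then QR else 0) - ζR i j) * v +
        v * (ζR i j * (1 - g))) + (u * (star (L i) * a * R j) * v - c i j) +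
      star (u * (star (L j) * a * R i) * v - c j i) := by
    have k1 : star (L i * u + R i * v) = u * star (L i) + v * star (R i) := by
      rw [star_add, star_mul, star_mul, hus, hvs]
    have k2 : star (u * (star (L j) * a * R i) * v - c j i) =
        v * (star (R i) * a * L j) * u - star (c j i) := by
      rw [star_sub, star_mul, star_mul, star_mul, star_mul, star_star, ha, hus, hvs]
      simp only [mul_assoc]
    have k3 : ζL i j * u = ζL i j * (1 - h) + ζL i j * g := by rw [hu]; noncomm_ring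
    have k4 : ζR i j * v = ζR i j * (1 - g) + ζR i j * h := by rw [hv]; noncomm_ring
    have k5 : star (L i * u + R i * v) * a * (L j * u + R j * v) -
        (if i = j then u * QL * u + v * QR * v else 0) =
        u * (star (L i) * a * L j - (if i = j then QL else 0) - ζL i j) * u + u * (ζL i j * u) +
        (v * (star (R i) * a * R j - (if i = j then QR else 0) - ζR i j) * v +
          v * (ζR i j * v)) + u * (star (L i) * a * R j) * v + v * (star (R i) * a * L j) * u := by
      rw [k1]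
      split_ifs with hij
      · noncomm_ring
      · noncomm_ring
    rw [k2, k5, k3, k4, mul_add u (ζL i j * (1 - h)), mul_add v (ζR i j * (1 - g))]
    abel
  rw [key]
  have b1 : ‖u * (star (L i) * a * L j - (if i = j then QL else 0) - ζL i j) * u‖ ≤ 3 * η * 3 :=
    (norm_mul_le _ _).trans (mul_le_mul ((norm_mul_le _ _).trans
      (mul_le_mul hun (h1 i j) (norm_nonneg _) (by norm_num))) hun (norm_nonneg _)
      (by positivity))
  have b2 : ‖u * (ζL i j * (1 - h))‖ ≤ 3 * η :=
    (norm_mul_le _ _).trans (mul_le_mul hun (hhz (Sum.inr (i, j))).1.le (norm_nonneg _)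
      (by norm_num))
  have b3 : ‖v * (star (R i) * a * R j - (if i = j then QR else 0) - ζR i j) * v‖ ≤ 3 * η * 3 :=
    (norm_mul_le _ _).trans (mul_le_mul ((norm_mul_le _ _).trans
      (mul_le_mul hvn (h2 i j) (norm_nonneg _) (by norm_num))) hvn (norm_nonneg _)
      (by positivity))
  have b4 : ‖v * (ζR i j * (1 - g))‖ ≤ 3 * η :=
    (norm_mul_le _ _).trans (mul_le_mul hvn (hgz (Sum.inr (i, j))).1.le (norm_nonneg _)
      (by norm_num))
  have b5 := hLR i j
  have b6 : ‖star (u * (star (L j) * a * R i) * v - c j i)‖ ≤ 15 * η := by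
    rw [norm_star]; exact hLR j i
  calc _ ≤ _ := norm_add_le _ _
    _ ≤ _ := add_le_add_left (norm_add_le _ _) _
    _ ≤ _ := add_le_add_left (add_le_add_left (norm_add_le _ _) _) _
    _ ≤ _ := add_le_add_left (add_le_add_left (add_le_add (norm_add_le _ _) (norm_add_le _ _)) _) _
    _ ≤ 54 * η := by linarith

end stages

section main

variable {A : Type u} [NonUnitalCStarAlgebra A] [PartialOrder A] [StarOrderedRing A]

/-- Gluing, relative and local form: `I₁ ∩ I₂ ⊆ K`, `A / (I₁ + I₂)` purely infinite, `n + n` rows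
modulo `I₂` and modulo `I₁` with tolerance `δ / 5000`; then `n` rows modulo `K` with
tolerance `δ`. -/
theorem glueR {n : ℕ} {a b : A} (ha : 0 ≤ a) (hb : 0 ≤ b)
    {I₁ I₂ K : Submodule ℂ A} (hI₁ : IsClosedIdeal I₁) (hI₂ : IsClosedIdeal I₂)
    (hK : IsClosedIdeal K) (h0 : ∀ z ∈ I₁, z ∈ I₂ → z ∈ K)
    {B : Type u} [NonUnitalCStarAlgebra B] {φ : A →⋆ₙₐ[ℂ] B}
    (hφ : Function.Surjective φ) (hk : ∀ z, φ z = 0 ↔ z ∈ (I₁ ⊔ I₂).topologicalClosure)
    (hB : Diag B) {δ : ℝ} (hδ : 0 < δ) (hx : RowsMod I₂ a b (n + n) (δ / 5000))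
    (hy : RowsMod I₁ a b (n + n) (δ / 5000)) : RowsMod K a b n δ := by
  set η : ℝ := δ / 5000 with hη
  have hη0 : 0 < η := by positivity
  obtain ⟨r, zr, hzr, hr⟩ := hx
  obtain ⟨s, zs, hzs, hs⟩ := hy
  set α : A := CFC.sqrt a with hα
  have hαα : α * α = a := CFC.sqrt_mul_sqrt_self a ha
  have hαs : star α = α := (IsSelfAdjoint.of_nonneg (CFC.sqrt_nonneg a)).star_eq
  obtain ⟨D, hD1, hD⟩ := hB (n + n) (Fin.append (fun i => φ (α * r (Fin.natAdd n i)))
    (fun i => φ (α * s (Fin.natAdd n i)))) η hη0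
  have hdl : ∀ k, ∃ d : A, ‖d‖ ≤ 1 ∧ φ d = D k := fun k => lift_contr' φ hφ (hD1 k)
  choose d hd1 hd using hdl
  have hφ0 : ∀ z ∈ I₁, φ z = 0 := fun z hz => (hk z).2
    (Submodule.le_topologicalClosure _ (Submodule.mem_sup_left hz))
  have hφ0' : ∀ z ∈ I₂, φ z = 0 := fun z hz => (hk z).2
    (Submodule.le_topologicalClosure _ (Submodule.mem_sup_right hz))
  -- the new families
  set t' : Fin n → A := fun i => r (Fin.natAdd n i) * d (Fin.castAdd n i) with ht'
  set s' : Fin n → A := fun i => s (Fin.natAdd n i) * d (Fin.natAdd n i) with hs'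
  have hφt : ∀ i j, φ (star (t' i) * a * t' j) =
      star (φ (α * r (Fin.natAdd n i)) * D (Fin.castAdd n i)) *
        (φ (α * r (Fin.natAdd n j)) * D (Fin.castAdd n j)) := by
    intro i j
    rw [← hd, ← hd, ← map_mul, ← map_mul, ← map_star, ← map_mul]
    congr 1
    simp only [ht', star_mul, hαs, ← hαα, mul_assoc]
  have hφs : ∀ i j, φ (star (s' i) * a * s' j) =
      star (φ (α * s (Fin.natAdd n i)) * D (Fin.natAdd n i)) *
        (φ (α * s (Fin.natAdd n j)) * D (Fin.natAdd n j)) := by
    intro i j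
    rw [← hd, ← hd, ← map_mul, ← map_mul, ← map_star, ← map_mul]
    congr 1
    simp only [hs', star_mul, hαs, ← hαα, mul_assoc]
  have hφts : ∀ i j, φ (star (t' i) * a * s' j) =
      star (φ (α * r (Fin.natAdd n i)) * D (Fin.castAdd n i)) *
        (φ (α * s (Fin.natAdd n j)) * D (Fin.natAdd n j)) := by
    intro i j
    rw [← hd, ← hd, ← map_mul, ← map_mul, ← map_star, ← map_mul]
    congr 1
    simp only [ht', hs', star_mul, hαs, ← hαα, mul_assoc]
  have hdr : ∀ (w : A), star (φ (α * w)) * φ (α * w) = φ (star w * a * w) := by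
    intro w
    rw [← map_star, ← map_mul]
    congr 1
    simp only [star_mul, hαs, ← hαα, mul_assoc]
  have hφr : ∀ i j, ‖φ (star (r i) * a * r j - (if i = j then b else 0))‖ ≤ η := by
    intro i j
    have h2 := hr i j
    have h3 : φ (star (r i) * a * r j - (if i = j then b else 0)) =
        φ (star (r i) * a * r j - (if i = j then b else 0) - zr i j) := by
      rw [map_sub φ (star (r i) * a * r j - (if i = j then b else 0)) (zr i j),
        hφ0' _ (hzr i j), sub_zero]
    rw [h3]
    exact (NonUnitalStarAlgHom.norm_apply_le φ _).trans h2.le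
  have hφs1 : ∀ i j, ‖φ (star (s i) * a * s j - (if i = j then b else 0))‖ ≤ η := by
    intro i j
    have h2 := hs i j
    have h3 : φ (star (s i) * a * s j - (if i = j then b else 0)) =
        φ (star (s i) * a * s j - (if i = j then b else 0) - zs i j) := by
      rw [map_sub φ (star (s i) * a * s j - (if i = j then b else 0)) (zs i j),
        hφ0 _ (hzs i j), sub_zero]
    rw [h3]
    exact (NonUnitalStarAlgHom.norm_apply_le φ _).trans h2.le
  have T1 : ∀ i j, ‖φ (star (t' i) * a * t' j - (if i = j then b else 0))‖ ≤ 2 * η := by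
    intro i j
    have h1 := hD (Fin.castAdd n i) (Fin.castAdd n j)
    simp only [Fin.append_left, (Fin.castAdd_injective n n).eq_iff] at h1
    rw [← hφt, hdr] at h1
    split_ifs at h1 ⊢ with hij
    · have h3 := hφr (Fin.natAdd n i) (Fin.natAdd n i)
      rw [if_pos rfl] at h3
      have h4 : φ (star (t' i) * a * t' j - b) =
          (φ (star (t' i) * a * t' j) - φ (star (r (Fin.natAdd n i)) * a * r (Fin.natAdd n i))) +
            φ (star (r (Fin.natAdd n i)) * a * r (Fin.natAdd n i) - b) := by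
        rw [map_sub, map_sub, sub_add_sub_cancel]
      rw [h4]
      exact (norm_add_le _ _).trans (by linarith)
    · rw [sub_zero] at h1 ⊢
      linarith
  have T2 : ∀ i j, ‖φ (star (s' i) * a * s' j - (if i = j then b else 0))‖ ≤ 2 * η := by
    intro i j
    have h1 := hD (Fin.natAdd n i) (Fin.natAdd n j)
    simp only [Fin.append_right, (Fin.natAdd_injective n n).eq_iff] at h1
    rw [← hφs, hdr] at h1
    split_ifs at h1 ⊢ with hij
    · have h3 := hφs1 (Fin.natAdd n i) (Fin.natAdd n i)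
      rw [if_pos rfl] at h3
      have h4 : φ (star (s' i) * a * s' j - b) =
          (φ (star (s' i) * a * s' j) - φ (star (s (Fin.natAdd n i)) * a * s (Fin.natAdd n i))) +
            φ (star (s (Fin.natAdd n i)) * a * s (Fin.natAdd n i) - b) := by
        rw [map_sub, map_sub, sub_add_sub_cancel]
      rw [h4]
      exact (norm_add_le _ _).trans (by linarith)
    · rw [sub_zero] at h1 ⊢
      linarith
  have hne : ∀ i j : Fin n, Fin.castAdd n i ≠ Fin.natAdd n j := by
    intro i j h
    have := congrArg Fin.val h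
    simp only [Fin.val_castAdd, Fin.val_natAdd] at this
    omega
  have T3 : ∀ i j, ‖φ (star (t' i) * a * s' j)‖ ≤ 2 * η := by
    intro i j
    have h1 := hD (Fin.castAdd n i) (Fin.natAdd n j)
    simp only [Fin.append_left, Fin.append_right, if_neg (hne i j), sub_zero] at h1
    rw [← hφts] at h1
    linarith
  choose zt1 hzt1 zt2 hzt2 hzt using fun i j => near_sum hk (by positivity : 0 < 2 * η) (T1 i j)
  choose zs1 hzs1 zs2 hzs2 hzs' using fun i j => near_sum hk (by positivity : 0 < 2 * η) (T2 i j)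
  choose zc1 hzc1 zc2 hzc2 hzc using fun i j => near_sum hk (by positivity : 0 < 2 * η) (T3 i j)
  -- pass to the unitization
  have h0c : ∀ z, z ∈ hI₁.toC → z ∈ hI₂.toC → z ∈ hK.toC := by
    intro z hz1 hz2
    obtain ⟨w, hw, rfl⟩ := hI₁.exists_of_mem hz1
    exact hK.mem_toC.2 (h0 w hw (hI₂.mem_toC.1 hz2))
  have hac : star (a : Unitization ℂ A) = (a : Unitization ℂ A) := by
    rw [← Unitization.inr_star, (IsSelfAdjoint.of_nonneg ha).star_eq]
  have hcast : ∀ (c : A) (i j : Fin n), ((if i = j then c else 0 : A) : Unitization ℂ A) =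
      if i = j then (c : Unitization ℂ A) else 0 := by
    intro c i j
    split_ifs
    · rfl
    · exact Unitization.inr_zero ℂ
  have hcn : ∀ (p q c w : A) (i j : Fin n), ‖star (p : Unitization ℂ A) * (a : Unitization ℂ A) *
      (q : Unitization ℂ A) - (if i = j then (c : Unitization ℂ A) else 0) -
        (w : Unitization ℂ A)‖ = ‖star p * a * q - (if i = j then c else 0) - w‖ := by
    intro p q c w i j
    rw [← hcast, ← Unitization.inr_star, ← Unitization.inr_mul, ← Unitization.inr_mul,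
      ← Unitization.inr_sub, ← Unitization.inr_sub, final_norm]
  have hcn2 : ∀ (p q w : A), ‖star (p : Unitization ℂ A) * (a : Unitization ℂ A) *
      (q : Unitization ℂ A) - (w : Unitization ℂ A)‖ = ‖star p * a * q - w‖ := by
    intro p q w
    rw [← Unitization.inr_star, ← Unitization.inr_mul, ← Unitization.inr_mul,
      ← Unitization.inr_sub, final_norm]
  have hsh : ∀ (p q w e : A), ‖star p * a * q - w‖ < η → ‖e‖ ≤ 1 →
      ‖star p * a * (q * e) - w * e‖ ≤ 4 * η := by
    intro p q w e h1 h2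
    have h3 : star p * a * (q * e) - w * e = (star p * a * q - w) * e := by
      rw [sub_mul]; simp only [mul_assoc]
    rw [h3]
    calc _ ≤ ‖star p * a * q - w‖ * ‖e‖ := norm_mul_le _ _
      _ ≤ η * 1 := mul_le_mul h1.le h2 (norm_nonneg _) hη0.le
      _ ≤ 4 * η := by linarith
  obtain ⟨g, hg, hgs, hgn, ζL, hζL, hL⟩ := stage1 (n := n) hI₁.toC hI₂.toC
    (a := (a : Unitization ℂ A)) (b := (b : Unitization ℂ A)) hac
    (fun i => (r (Fin.castAdd n i) : Unitization ℂ A)) (fun i => (t' i : Unitization ℂ A))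
    (fun i j => (zt1 i j : Unitization ℂ A)) (fun i j => (zt2 i j : Unitization ℂ A))
    (fun i j => (zr (Fin.castAdd n i) (Fin.castAdd n j) : Unitization ℂ A))
    (fun i j => ((zr (Fin.castAdd n i) (Fin.natAdd n j) * d (Fin.castAdd n j) : A) :
      Unitization ℂ A))
    (fun i j => hI₁.mem_toC.2 (hzt1 i j)) (fun i j => hI₂.mem_toC.2 (hzt2 i j))
    (fun i j => hI₂.mem_toC.2 (hzr _ _)) (fun i j => hI₂.mem_toC.2 (hI₂.2 _ _ (hzr _ _)).2)
    (by positivity : 0 < 4 * η)
    (by
      intro i j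
      have h1 := hr (Fin.castAdd n i) (Fin.castAdd n j)
      simp only [(Fin.castAdd_injective n n).eq_iff] at h1
      rw [hcn]; linarith)
    (by
      intro i j
      have h1 := hr (Fin.castAdd n i) (Fin.natAdd n j)
      rw [if_neg (hne i j), sub_zero] at h1
      rw [hcn2]
      exact hsh _ _ _ _ h1 (hd1 _))
    (by
      intro i j
      have h2 := hcn (t' i) (t' j) b (zt1 i j + zt2 i j) i j
      rw [Unitization.inr_add] at h2
      rw [h2]
      have := hzt i j
      linarith)
  obtain ⟨g', hg', hgs', hgn', ζR, hζR, hR⟩ := stage1 (n := n) hI₂.toC hI₁.toC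
    (a := (a : Unitization ℂ A)) (b := (b : Unitization ℂ A)) hac
    (fun i => (s (Fin.castAdd n i) : Unitization ℂ A)) (fun i => (s' i : Unitization ℂ A))
    (fun i j => (zs2 i j : Unitization ℂ A)) (fun i j => (zs1 i j : Unitization ℂ A))
    (fun i j => (zs (Fin.castAdd n i) (Fin.castAdd n j) : Unitization ℂ A))
    (fun i j => ((zs (Fin.castAdd n i) (Fin.natAdd n j) * d (Fin.natAdd n j) : A) :
      Unitization ℂ A))
    (fun i j => hI₂.mem_toC.2 (hzs2 i j)) (fun i j => hI₁.mem_toC.2 (hzs1 i j))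
    (fun i j => hI₁.mem_toC.2 (hzs _ _)) (fun i j => hI₁.mem_toC.2 (hI₁.2 _ _ (hzs _ _)).2)
    (by positivity : 0 < 4 * η)
    (by
      intro i j
      have h1 := hs (Fin.castAdd n i) (Fin.castAdd n j)
      simp only [(Fin.castAdd_injective n n).eq_iff] at h1
      rw [hcn]; linarith)
    (by
      intro i j
      have h1 := hs (Fin.castAdd n i) (Fin.natAdd n j)
      rw [if_neg (hne i j), sub_zero] at h1
      rw [hcn2]
      exact hsh _ _ _ _ h1 (hd1 _))
    (by
      intro i j
      have h2 := hcn (s' i) (s' j) b (zs1 i j + zs2 i j) i j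
      rw [Unitization.inr_add] at h2
      rw [add_comm (zs2 i j : Unitization ℂ A), h2]
      have := hzs' i j
      linarith)
  have h1s : ∀ e : Unitization ℂ A, star e = e → star (1 - e) = 1 - e := by
    intro e he
    rw [star_sub, star_one, he]
  set L : Fin n → Unitization ℂ A := fun i => (r (Fin.castAdd n i) : Unitization ℂ A) * g +
    (t' i : Unitization ℂ A) * (1 - g) with hLdef
  set R : Fin n → Unitization ℂ A := fun i => (s (Fin.castAdd n i) : Unitization ℂ A) * g' +
    (s' i : Unitization ℂ A) * (1 - g') with hRdef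
  set b' : Unitization ℂ A := (b : Unitization ℂ A) with hb'
  set a' : Unitization ℂ A := (a : Unitization ℂ A) with ha'
  obtain ⟨u, v, hus, hvs, huv, κ, hκ, hT⟩ := stage2 (n := n) hI₁.toC hI₂.toC hK.toC h0c
    (a := a') (QL := g * b' * g + (1 - g) * b' * (1 - g))
    (QR := g' * b' * g' + (1 - g') * b' * (1 - g')) hac L R ζL ζR
    (fun i j => g * (star (r (Fin.castAdd n i) : Unitization ℂ A) * a' * R j) +
      (1 - g) * (zc1 i j : Unitization ℂ A) * (1 - g'))
    (fun i j => (1 - g) * (star (t' i : Unitization ℂ A) * a' *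
      (s (Fin.castAdd n j) : Unitization ℂ A)) * g' +
      (1 - g) * (zc2 i j : Unitization ℂ A) * (1 - g'))
    hζL hζR
    (fun i j => hI₁.toC.add_mem (hI₁.toC.right_mem hg _)
      (hI₁.toC.right_mem (hI₁.toC.left_mem _ (hI₁.mem_toC.2 (hzc1 i j))) _))
    (fun i j => hI₂.toC.add_mem (hI₂.toC.left_mem _ hg')
      (hI₂.toC.right_mem (hI₂.toC.left_mem _ (hI₂.mem_toC.2 (hzc2 i j))) _))
    (by positivity : 0 < 44 * η)
    (fun i j => (hL i j).trans (by linarith)) (fun i j => (hR i j).trans (by linarith))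
    (by
      intro i j
      have k1 : star (L i) * a' * R j - (g * (star (r (Fin.castAdd n i) : Unitization ℂ A) * a' *
          R j) + (1 - g) * (zc1 i j : Unitization ℂ A) * (1 - g') + ((1 - g) *
          (star (t' i : Unitization ℂ A) * a' * (s (Fin.castAdd n j) : Unitization ℂ A)) * g' +
          (1 - g) * (zc2 i j : Unitization ℂ A) * (1 - g'))) =
          (1 - g) * (star (t' i : Unitization ℂ A) * a' * (s' j : Unitization ℂ A) -
            ((zc1 i j : Unitization ℂ A) + (zc2 i j : Unitization ℂ A))) * (1 - g') := by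
        have k2 : star (L i) = g * star (r (Fin.castAdd n i) : Unitization ℂ A) +
            (1 - g) * star (t' i : Unitization ℂ A) := by
          rw [hLdef, star_add, star_mul, star_mul, hgs, h1s g hgs]
        rw [k2]
        simp only [hRdef]
        noncomm_ring
      rw [k1]
      have k3 : ‖star (t' i : Unitization ℂ A) * a' * (s' j : Unitization ℂ A) -
            ((zc1 i j : Unitization ℂ A) + (zc2 i j : Unitization ℂ A))‖ ≤ 4 * η := by
        rw [ha', ← Unitization.inr_star, ← Unitization.inr_mul, ← Unitization.inr_mul,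
          ← Unitization.inr_add, ← Unitization.inr_sub, final_norm]
        have := hzc i j
        linarith
      calc _ ≤ ‖1 - g‖ * ‖star (t' i : Unitization ℂ A) * a' * (s' j : Unitization ℂ A) -
            ((zc1 i j : Unitization ℂ A) + (zc2 i j : Unitization ℂ A))‖ * ‖1 - g'‖ :=
            (norm_mul_le _ _).trans (by gcongr; exact norm_mul_le _ _)
        _ ≤ 2 * (4 * η) * 2 := by
            gcongr
            · exact h1n_le g hgn
            · exact h1n_le g' hgn'
        _ ≤ 44 * η := by linarith)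
  -- back to `A`
  have hmA : ∀ z : A, (z : Unitization ℂ A) ∈ final_ideal A := fun z => final_mem_iff.2 ⟨z, rfl⟩
  have hTA : ∀ i, ∃ T : A, L i * u + R i * v = (T : Unitization ℂ A) := by
    intro i
    refine final_mem_iff.1 ?_
    exact (final_ideal A).add_mem
      ((final_ideal A).right_mem ((final_ideal A).add_mem
        ((final_ideal A).right_mem (hmA _) _) ((final_ideal A).right_mem (hmA _) _)) _)
      ((final_ideal A).right_mem ((final_ideal A).add_mem
        ((final_ideal A).right_mem (hmA _) _) ((final_ideal A).right_mem (hmA _) _)) _)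
  choose T hTT using hTA
  choose κA hκA hκκ using fun i j => hK.exists_of_mem (hκ i j)
  set QL : Unitization ℂ A := g * b' * g + (1 - g) * b' * (1 - g) with hQL
  set QR : Unitization ℂ A := g' * b' * g' + (1 - g') * b' * (1 - g') with hQR
  obtain ⟨Q, hQ⟩ : ∃ Q : A, u * QL * u + v * QR * v = (Q : Unitization ℂ A) := by
    refine final_mem_iff.1 ?_
    have hm : ∀ p q : Unitization ℂ A, p * b' * q ∈ final_ideal A := fun p q =>
      (final_ideal A).right_mem ((final_ideal A).left_mem _ (hmA b)) _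
    exact (final_ideal A).add_mem
      ((final_ideal A).right_mem ((final_ideal A).left_mem _
        ((final_ideal A).add_mem (hm _ _) (hm _ _))) _)
      ((final_ideal A).right_mem ((final_ideal A).left_mem _
        ((final_ideal A).add_mem (hm _ _) (hm _ _))) _)
  have hb0 : 0 ≤ b' := by rw [hb', Unitization.inr_nonneg_iff]; exact hb
  have hconj : ∀ (p z : Unitization ℂ A), star p = p → 0 ≤ z → 0 ≤ p * z * p := by
    intro p z hp hz
    have := star_left_conjugate_nonneg hz p
    rwa [hp] at this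
  have hpin : ∀ p : Unitization ℂ A, star p = p →
      0 ≤ (p * b' * p + (1 - p) * b' * (1 - p)) + (p * b' * p + (1 - p) * b' * (1 - p)) - b' := by
    intro p hp
    have h1 := hconj (p - (1 - p)) b' (by rw [star_sub, hp, h1s p hp]) hb0
    have h2 : (p - (1 - p)) * b' * (p - (1 - p)) =
        (p * b' * p + (1 - p) * b' * (1 - p)) + (p * b' * p + (1 - p) * b' * (1 - p)) - b' := by
      noncomm_ring
    rwa [h2] at h1
  have hbQ : b ≤ Q := by
    rw [← sub_nonneg, ← Unitization.inr_nonneg_iff, Unitization.inr_sub, ← hQ, ← hb']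
    have h1 := hconj u _ hus (hpin g hgs)
    have h2 := hconj v _ hvs (hpin g' hgs')
    have h3 := hconj (u - v) b' (by rw [star_sub, hus, hvs]) hb0
    rw [← hQL] at h1
    rw [← hQR] at h2
    have h4 : (u + v) * b' * (u + v) = b' + b' + b' + b' := by rw [huv]; noncomm_ring
    have h5 := add_nonneg (add_nonneg (add_nonneg h1 h1) (add_nonneg h2 h2)) h3
    set W : Unitization ℂ A := u * QL * u + v * QR * v - b' with hW
    have h6 : u * (QL + QL - b') * u + u * (QL + QL - b') * u +
        (v * (QR + QR - b') * v + v * (QR + QR - b') * v) + (u - v) * b' * (u - v) =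
        W + W + W + W := by
      have h7 : W + W + W + W = (u * QL * u + v * QR * v) + (u * QL * u + v * QR * v) +
          (u * QL * u + v * QR * v) + (u * QL * u + v * QR * v) - (u + v) * b' * (u + v) := by
        rw [h4, hW]; abel
      rw [h7]
      noncomm_ring
    rw [h6] at h5
    have h8 : W = (1 / 4 : ℝ) • (W + W + W + W) := by module
    rw [h8]
    exact smul_nonneg (by norm_num) h5
  obtain ⟨d0, hd01, hd0⟩ := order_factor_c hb hbQ (by positivity : 0 < δ / 4)
  refine ⟨fun i => T i * d0, fun i j => star d0 * κA i j * d0,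
    fun i j => (hK.2 _ _ (hK.2 _ _ (hκA i j)).1).2, fun i j => ?_⟩
  have hTn : ‖star (T i) * a * T j - (if i = j then Q else 0) - κA i j‖ ≤ 54 * (44 * η) := by
    have h1 := hT i j
    rw [hTT i, hTT j, hQ, hκκ i j] at h1
    have h2 : ((star (T i) * a * T j - (if i = j then Q else 0) - κA i j : A) :
        Unitization ℂ A) = star (T i : Unitization ℂ A) * a' * (T j : Unitization ℂ A) -
          (if i = j then (Q : Unitization ℂ A) else 0) - (κA i j : Unitization ℂ A) := by
      rw [Unitization.inr_sub, Unitization.inr_sub, hcast, Unitization.inr_mul,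
        Unitization.inr_mul, Unitization.inr_star]
    rw [← final_norm, h2]
    exact h1
  have key : star (T i * d0) * a * (T j * d0) - (if i = j then b else 0) -
      star d0 * κA i j * d0 =
      star d0 * (star (T i) * a * T j - (if i = j then Q else 0) - κA i j) * d0 +
        (if i = j then star d0 * Q * d0 - b else 0) := by
    rw [star_mul]
    split_ifs with hij
    · noncomm_ring
    · noncomm_ring
  have hlast : ‖(if i = j then star d0 * Q * d0 - b else 0 : A)‖ ≤ δ / 4 := by
    split_ifs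
    · exact hd0
    · rw [norm_zero]; positivity
  have hds : ‖star d0‖ ≤ 1 := by rw [norm_star]; exact hd01
  rw [key]
  calc _ ≤ ‖star d0 * (star (T i) * a * T j - (if i = j then Q else 0) - κA i j) * d0‖ +
        ‖(if i = j then star d0 * Q * d0 - b else 0 : A)‖ := norm_add_le _ _
    _ ≤ ‖star d0‖ * ‖star (T i) * a * T j - (if i = j then Q else 0) - κA i j‖ * ‖d0‖ +
        δ / 4 := by
        gcongr
        exact (norm_mul_le _ _).trans (by gcongr; exact norm_mul_le _ _)
    _ ≤ 1 * (54 * (44 * η)) * 1 + δ / 4 := by gcongr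
    _ < δ := by rw [hη]; linarith

/-- `n` rows modulo `K` for every tolerance give any number of rows -/
theorem rowsMod_all {n : ℕ} (hn : WPI A n) {K : Submodule ℂ A} (hK : IsClosedIdeal K) {a b : A}
    (hb : 0 ≤ b) (h : ∀ ε : ℝ, 0 < ε → RowsMod K a b n ε) (m : ℕ) {ε : ℝ} (hε : 0 < ε) :
    RowsMod K a b m ε := by
  obtain ⟨z, hz⟩ := hn b hb m (ε / 2) (half_pos hε)
  set C : ℝ := ∑ j, ∑ i, ‖z i j‖ with hC
  have hC0 : 0 ≤ C := Finset.sum_nonneg fun j _ => Finset.sum_nonneg fun i _ => norm_nonneg _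
  have hCj : ∀ j, ∑ i, ‖z i j‖ ≤ C := fun j =>
    Finset.single_le_sum (f := fun j => ∑ i, ‖z i j‖)
      (fun j _ => Finset.sum_nonneg fun i _ => norm_nonneg _) (Finset.mem_univ j)
  obtain ⟨T, w, hw, hT⟩ := h (ε / (2 * (C * C + 1))) (by positivity)
  refine ⟨fun j => ∑ i, T i * z i j, fun j j' => ∑ k, ∑ k', star (z k j) * w k k' * z k' j',
    fun j j' => Submodule.sum_mem _ fun k _ => Submodule.sum_mem _ fun k' _ =>
      (hK.2 _ _ (hK.2 _ _ (hw k k')).1).2, fun j j' => ?_⟩
  have h2 := star_sum_mul_sum T a (fun i => z i j) (fun i => z i j')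
  have h3 : ∑ k, ∑ k', star (z k j) * ((if k = k' then b else 0) + w k k') * z k' j' =
      ∑ i, star (z i j) * b * z i j' + ∑ k, ∑ k', star (z k j) * w k k' * z k' j' := by
    rw [← Finset.sum_add_distrib]
    refine Finset.sum_congr rfl fun k _ => ?_
    simp only [mul_add, add_mul, Finset.sum_add_distrib, mul_ite, ite_mul, mul_zero, zero_mul,
      Finset.sum_ite_eq, Finset.mem_univ, if_true]
  have hT' : ∀ k k', ‖star (T k) * a * T k' - ((if k = k' then b else 0) + w k k')‖ <
      ε / (2 * (C * C + 1)) := fun k k' => by rw [← sub_sub]; exact hT k k'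
  have h4 := quad_diff (fun i => z i j) (fun i => z i j') (fun k k' => star (T k) * a * T k')
    (fun k k' => (if k = k' then b else 0) + w k k') (by positivity)
    (fun k k' => (hT' k k').le) (hCj j) (hCj j')
  rw [h3, ← h2] at h4
  have h5 : C * C * (ε / (2 * (C * C + 1))) ≤ ε / 2 := by
    rw [mul_div_assoc', div_le_div_iff₀ (by positivity) (by norm_num)]
    nlinarith [mul_nonneg hC0 hC0]
  have h6 := hz j j'
  have h7 : star (∑ i, T i * z i j) * a * (∑ i, T i * z i j') - (if j = j' then b else 0) -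
      ∑ k, ∑ k', star (z k j) * w k k' * z k' j' =
      (star (∑ i, T i * z i j) * a * (∑ i, T i * z i j') -
        (∑ i, star (z i j) * b * z i j' + ∑ k, ∑ k', star (z k j) * w k k' * z k' j')) +
      (∑ i, star (z i j) * b * z i j' - (if j = j' then b else 0)) := by abel
  rw [h7]
  calc _ ≤ _ := norm_add_le _ _
    _ < ε := by linarith

theorem rowsMod_bot {a b : A} (hb : 0 ≤ b)
    (h : ∀ (m : ℕ) (ε : ℝ), 0 < ε → RowsMod (⊥ : Submodule ℂ A) a b m ε) : InfB a b := by
  refine ⟨hb, fun m ε hε => ?_⟩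
  obtain ⟨r, z, hz, hr⟩ := h m ε hε
  refine ⟨r, fun i j => ?_⟩
  have h1 := hr i j
  rwa [(Submodule.mem_bot ℂ).1 (hz i j), sub_zero] at h1

theorem rowsMod_of_infB {K : Submodule ℂ A} {a b : A} (h : InfB a b) (m : ℕ) {ε : ℝ}
    (hε : 0 < ε) : RowsMod K a b m ε := by
  obtain ⟨r, hr⟩ := h.2 m ε hε
  exact ⟨r, fun _ _ => 0, fun _ _ => K.zero_mem, fun i j => by rw [sub_zero]; exact hr i j⟩

theorem RowsMod.mono {K K' : Submodule ℂ A} (hKK : K ≤ K') {a b : A} {m : ℕ} {ε : ℝ}
    (h : RowsMod K a b m ε) : RowsMod K' a b m ε := by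
  obtain ⟨r, z, hz, hr⟩ := h
  exact ⟨r, z, fun i j => hKK (hz i j), hr⟩

end main

end Vale.Agent.P133.H330
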