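import Vale.Agent.P133.H330.WayBelow
import Vale.Agent.P133.H779.Rel
import Vale.Agent.P133.H779.Sigma
import Vale.Agent.P133.R2.H307.Final2

/-!
P133 (helper330): continuous maps from the primitive ideal space to a locally compact Hausdorff
space make the algebra the algebra of sections of a field over that space.
-/

open scoped ComplexOrder

namespace Vale.Agent.P133.H330

open Vale.Agent.P133 Vale.Agent.P133F Vale.Agent.P133.Statement Vale.Agent.P133.H832
  Vale.Agent.P133.H681 Vale.Agent.P133.R2 Vale.Agent.P133.R2.H28 TopologicalSpace Topology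

universe u

section

variable {A : Type u} [NonUnitalCStarAlgebra A] [PartialOrder A] [StarOrderedRing A]
  {B : Type u} [NonUnitalCStarAlgebra B] [PartialOrder B] [StarOrderedRing B]

theorem cut_mem_iff {I : Submodule ℂ A} {φ : A →⋆ₙₐ[ℂ] B} (hk : ∀ x, φ x = 0 ↔ x ∈ I) {b : A}
    (hb : 0 ≤ b) {s : ℝ} (hs : 0 < s) : R2.H28.cut b s ∈ I ↔ ‖φ b‖ ≤ s := by
  constructor
  · intro h
    have h1 := R2.H28.norm_cut_sub_le (Vale.Agent.P133.H779.map_nonneg_aux φ hb) hs
    rw [← cut_map φ hb hs.le, (hk _).2 h, zero_sub, norm_neg] at h1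
    exact h1
  · exact fun h => R2.H28.cut_mem_of_norm hb hs φ hk h

end

section

variable {X Y : Type u} [TopologicalSpace X] [TopologicalSpace Y] {A : Type u}
  [NonUnitalCStarAlgebra A] [PartialOrder A] [StarOrderedRing A] {e : Opens X → Submodule ℂ A}
  (he : ∀ O, IsClosedIdeal (e O))
  (hs : ∀ I, IsClosedIdeal I → ∃ O, e O = I) (hle : ∀ O O', e O ≤ e O' ↔ O ≤ O')
  {f : X → Y} (hf : Continuous f) (hZ : ∀ y, IsClosed (f ⁻¹' {y}))
  {B : Y → Type u} [∀ y, NonUnitalCStarAlgebra (B y)] [∀ y, PartialOrder (B y)]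
  [∀ y, StarOrderedRing (B y)] {π : ∀ y, A →⋆ₙₐ[ℂ] B y}
  (hk : ∀ y x, π y x = 0 ↔ x ∈ e (co (hZ y)))

omit [TopologicalSpace Y] in
include he hs hle hk in
theorem norm_le_of_fibres {a : A} {r : ℝ} (hr : 0 ≤ r) (h : ∀ y, ‖π y a‖ ≤ r) : ‖a‖ ≤ r := by
  have h1 : ∀ s, r ^ 2 < s → ‖a‖ * ‖a‖ ≤ s := by
    intro s hs'
    have hs0 : 0 < s := (sq_nonneg r).trans_lt hs'
    have h2 : ∀ y, R2.H28.cut (star a * a) s ∈ e (co (hZ y)) := fun y =>
      (cut_mem_iff (hk y) (star_mul_self_nonneg a) hs0).2 (by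
        rw [map_mul, map_star, CStarRing.norm_star_mul_self]
        nlinarith [h y, norm_nonneg (π y a)])
    obtain ⟨V, hV⟩ := exists_supp he hs hle (R2.H28.cut (star a * a) s)
    have h3 : V ≤ ⊥ := fun x hx => absurd rfl ((hV _).1 (h2 (f x)) hx)
    have h5 : e ⊥ ≤ ⊥ := by
      obtain ⟨O, hO⟩ := hs ⊥ isClosedIdeal_bot
      rw [← hO]
      exact (hle _ _).2 bot_le
    have h6 := R2.H28.norm_cut_sub_le (star_mul_self_nonneg a) hs0
    rw [(Submodule.mem_bot ℂ).1 (h5 ((hV ⊥).2 h3)), zero_sub, norm_neg,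
      CStarRing.norm_star_mul_self] at h6
    exact h6
  by_contra hlt
  push Not at hlt
  have h2 := h1 ((r ^ 2 + ‖a‖ * ‖a‖) / 2) (by nlinarith)
  nlinarith

include he hs hle hf hk in
/-- directed families of open subsets of `Y` -/
theorem exists_of_directed {κ : Type u} [Nonempty κ] {O : κ → Opens Y}
    (hO : Directed (· ≤ ·) O) {b : A} (hb : 0 ≤ b) {s t : ℝ} (hs0 : 0 < s) (hst : s < t)
    (h : ∀ y, (∀ i, y ∉ O i) → ‖π y b‖ ≤ s) : ∃ i, ∀ y, y ∉ O i → ‖π y b‖ ≤ t := by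
  let O' : κ → Opens X := fun i => ⟨f ⁻¹' (O i), (O i).2.preimage hf⟩
  have hO' : Directed (· ≤ ·) O' := by
    intro i j
    obtain ⟨k, h1, h2⟩ := hO i j
    exact ⟨k, fun x hx => h1 hx, fun x hx => h2 hx⟩
  obtain ⟨V, hV⟩ := exists_supp he hs hle (R2.H28.cut b s)
  have h1 : V ≤ ⨆ i, O' i := by
    intro x hx
    by_contra hno
    have h2 : ∀ i, f x ∉ O i := fun i hi => hno (Opens.mem_iSup.2 ⟨i, hi⟩)
    exact absurd rfl ((hV _).1 ((cut_mem_iff (hk (f x)) hb hs0).2 (h _ h2)) hx)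
  obtain ⟨i, hi⟩ := exists_cut_mem' he hs hle hO' h1 hb hs0 hst ((hV V).2 le_rfl)
  refine ⟨i, fun y hy => (cut_mem_iff (hk y) hb (hs0.trans hst)).1 ((hle _ _).2 ?_ hi)⟩
  intro x hx hxy
  rw [Set.mem_preimage, Set.mem_singleton_iff] at hxy
  exact hy (hxy ▸ hx)

include he hs hle hf hk in
theorem isCompact_fibres [LocallyCompactSpace Y] [T2Space Y] (a : A) {r : ℝ} (hr : 0 < r) :
    IsCompact {y | r ≤ ‖π y a‖} := by
  have hb : 0 ≤ star a * a := star_mul_self_nonneg a
  have hn : ∀ y, ‖π y (star a * a)‖ = ‖π y a‖ * ‖π y a‖ := fun y => by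
    rw [map_mul, map_star, CStarRing.norm_star_mul_self]
  have hr2 : 0 < r * r := mul_pos hr hr
  have hlt : ∀ y t, ‖π y (star a * a)‖ ≤ t → t < r * r → ¬ r ≤ ‖π y a‖ := by
    intro y t h1 h2 h3
    rw [hn] at h1
    nlinarith [mul_self_le_mul_self hr.le h3]
  -- a compact set that contains it
  obtain ⟨C, hC⟩ : ∃ C : {C : Set Y // IsCompact C}, ∀ y, y ∉ (⟨interior C.1, isOpen_interior⟩ :
      Opens Y) → ‖π y (star a * a)‖ ≤ r * r / 2 := by
    have : Nonempty {C : Set Y // IsCompact C} := ⟨⟨∅, isCompact_empty⟩⟩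
    refine exists_of_directed he hs hle hf hZ hk (O := fun C : {C : Set Y // IsCompact C} =>
      ⟨interior C.1, isOpen_interior⟩) ?_ hb (s := r * r / 4) (by linarith) (by linarith) ?_
    · intro C D
      exact ⟨⟨C.1 ∪ D.1, C.2.union D.2⟩, interior_mono Set.subset_union_left,
        interior_mono Set.subset_union_right⟩
    · intro y hy
      obtain ⟨C, hC, hyC⟩ := exists_compact_mem_nhds y
      exact absurd (mem_interior_iff_mem_nhds.2 hyC) (hy ⟨C, hC⟩)
  refine C.2.of_isClosed_subset ?_ fun y hy => ?_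
  · rw [← isOpen_compl_iff, isOpen_iff_mem_nhds]
    intro y₀ hy₀
    have h0 : ‖π y₀ (star a * a)‖ < r * r := by
      rw [hn]
      have h1 : ‖π y₀ a‖ < r := not_le.1 hy₀
      nlinarith [norm_nonneg (π y₀ a)]
    have h1 : max ‖π y₀ (star a * a)‖ (r * r / 2) < r * r := max_lt h0 (by linarith)
    have h2 : 0 < max ‖π y₀ (star a * a)‖ (r * r / 2) :=
      lt_of_lt_of_le (by linarith) (le_max_right _ _)
    obtain ⟨N, hN⟩ : ∃ N : {N : Set Y // N ∈ 𝓝 y₀ ∧ IsClosed N}, ∀ y,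
        y ∉ (⟨N.1ᶜ, N.2.2.isOpen_compl⟩ : Opens Y) → ‖π y (star a * a)‖ ≤
          (max ‖π y₀ (star a * a)‖ (r * r / 2) + r * r) / 2 := by
      have : Nonempty {N : Set Y // N ∈ 𝓝 y₀ ∧ IsClosed N} :=
        ⟨⟨Set.univ, Filter.univ_mem, isClosed_univ⟩⟩
      refine exists_of_directed he hs hle hf hZ hk
        (O := fun N : {N : Set Y // N ∈ 𝓝 y₀ ∧ IsClosed N} => ⟨N.1ᶜ, N.2.2.isOpen_compl⟩) ?_ hb
        h2 (by linarith) ?_
      · intro N M
        exact ⟨⟨N.1 ∩ M.1, Filter.inter_mem N.2.1 M.2.1, N.2.2.inter M.2.2⟩,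
          Set.compl_subset_compl.2 Set.inter_subset_left,
          Set.compl_subset_compl.2 Set.inter_subset_right⟩
      · intro y hy
        have h3 : y = y₀ := by
          by_contra hne
          obtain ⟨u, v, hu, hv, hyu, hyv, huv⟩ := t2_separation hne
          refine hy ⟨uᶜ, Filter.mem_of_superset (hv.mem_nhds hyv) ?_, hu.isClosed_compl⟩ ?_
          · exact fun z hz hzu => Set.disjoint_left.1 huv hzu hz
          · exact fun h => h hyu
        rw [h3]
        exact le_max_left _ _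
    refine Filter.mem_of_superset N.2.1 fun z hz => ?_
    exact hlt z _ (hN z (fun h => h hz)) (by linarith)
  · by_contra hno
    exact hlt y _ (hC y fun h => hno (interior_subset h)) (by linarith) hy

include he hs hle in
omit [PartialOrder A] [StarOrderedRing A] in
/-- splitting along an open cover -/
theorem exists_split {O₁ O₂ : Opens X} (hO : O₁ ⊔ O₂ = ⊤) (a : A) {δ : ℝ} (hδ : 0 < δ) :
    ∃ v ∈ e O₁, ∃ w ∈ e O₂, ‖v‖ ≤ ‖a‖ ∧ ‖a - v - w‖ ≤ δ := by
  have hcl : IsClosedIdeal (e O₁ ⊔ e O₂).topologicalClosure :=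
    Vale.Agent.P133.H779.isClosedIdeal_sup (he _) (he _)
  have h1 : a ∈ (e O₁ ⊔ e O₂).topologicalClosure := by
    have h2 : e ⊤ ≤ (e O₁ ⊔ e O₂).topologicalClosure :=
      e_le_of (O := O₁) (O' := O₂) hs hle (by rw [hO]) hcl
        (le_sup_left.trans (Submodule.le_topologicalClosure _))
        (le_sup_right.trans (Submodule.le_topologicalClosure _))
    refine h2 ?_
    obtain ⟨O, hO'⟩ := hs ⊤ ⟨isClosed_univ, fun _ _ _ => ⟨trivial, trivial⟩⟩
    have h3 : e O ≤ e ⊤ := (hle _ _).2 le_top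
    rw [hO'] at h3
    exact h3 trivial
  obtain ⟨c, hc, hcn⟩ := Metric.mem_closure_iff.1
    (show a ∈ closure ((e O₁ ⊔ e O₂ : Submodule ℂ A) : Set A) from h1) (δ / 4) (by positivity)
  obtain ⟨x, hx, y, hy, rfl⟩ := Submodule.mem_sup.1 hc
  rw [dist_eq_norm] at hcn
  obtain ⟨D, i1, i2, i3, ι, hι, hr⟩ := exists_idAlg (he O₁)
  obtain ⟨d, rfl⟩ := (hr x).2 hx
  obtain ⟨g, hgs, hg1, hg⟩ := exists_g d (ε := δ / 4) (by positivity)
  have hG1 : ‖ι g‖ ≤ 1 := (NonUnitalStarAlgHom.norm_apply_le ι g).trans hg1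
  have hGe : ι g ∈ e O₁ := (hr _).1 ⟨g, rfl⟩
  refine ⟨ι g * a * ι g, ((he _).2 _ _ hGe).1, y - ι g * y * ι g,
    (e O₂).sub_mem hy ((he _).2 _ _ ((he _).2 _ _ hy).1).2, ?_, ?_⟩
  · calc ‖ι g * a * ι g‖ ≤ 1 * ‖a‖ * 1 :=
        norm_mul_le_of_le (norm_mul_le_of_le hG1 le_rfl) hG1
      _ = ‖a‖ := by ring
  · have e1 : a - ι g * a * ι g - (y - ι g * y * ι g) =
        -(ι (g * d * g - d)) + ((a - (ι d + y)) - ι g * (a - (ι d + y)) * ι g) := by
      rw [map_sub, map_mul, map_mul, mul_sub, mul_add, sub_mul, add_mul]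
      abel
    rw [e1]
    have h3 : ‖ι g * (a - (ι d + y)) * ι g‖ ≤ δ / 4 := by
      calc _ ≤ 1 * (δ / 4) * 1 := norm_mul_le_of_le (norm_mul_le_of_le hG1 hcn.le) hG1
        _ = δ / 4 := by ring
    calc _ ≤ ‖-(ι (g * d * g - d))‖ + ‖(a - (ι d + y)) - ι g * (a - (ι d + y)) * ι g‖ :=
          norm_add_le _ _
      _ ≤ δ / 4 + (δ / 4 + δ / 4) := by
          refine add_le_add ?_ ((norm_sub_le _ _).trans (add_le_add hcn.le h3))
          rw [norm_neg]
          exact (NonUnitalStarAlgHom.norm_apply_le ι _).trans hg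
      _ ≤ δ := by linarith

include he hs hle hf hk in
/-- approximate multiplication by a function -/
theorem exists_mul_approx {g : Y → ℝ} (hg : Continuous g) (hg0 : ∀ y, 0 ≤ g y)
    (hg1 : ∀ y, g y ≤ 1) (a : A) {δ : ℝ} (hδ : 0 < δ) :
    ∃ b, ∀ y, ‖π y b - (g y : ℂ) • π y a‖ ≤ δ := by
  obtain ⟨N, hN⟩ := exists_nat_gt (4 * ‖a‖ / δ)
  have hN0 : (0 : ℝ) < N := lt_of_le_of_lt (by positivity) hN
  have hNa : 2 * ‖a‖ / N ≤ δ / 2 := by
    rw [div_lt_iff₀ hδ] at hN
    rw [div_le_iff₀ hN0]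
    nlinarith
  have hgf : Continuous fun x => g (f x) := hg.comp hf
  let O₁ : ℕ → Opens X := fun j => ⟨{x | (j : ℝ) / N < g (f x)}, isOpen_lt continuous_const hgf⟩
  let O₂ : ℕ → Opens X := fun j => ⟨{x | g (f x) < ((j : ℝ) + 1) / N},
    isOpen_lt hgf continuous_const⟩
  have hO : ∀ j, O₁ j ⊔ O₂ j = ⊤ := by
    intro j
    refine top_le_iff.1 fun x _ => ?_
    by_cases h : (j : ℝ) / N < g (f x)
    · exact Or.inl h
    · refine Or.inr (lt_of_le_of_lt (not_lt.1 h) ?_)
      exact div_lt_div_of_pos_right (by linarith) hN0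
  choose v hv w hw hvn hvw using fun j => exists_split he hs hle (hO j) a (half_pos hδ)
  refine ⟨∑ j ∈ Finset.range N, ((1 / N : ℝ) : ℂ) • v j, fun y => ?_⟩
  have hNg : 0 ≤ N * g y := mul_nonneg hN0.le (hg0 y)
  obtain ⟨m, hm⟩ : ∃ m, m = ⌊N * g y⌋₊ := ⟨_, rfl⟩
  have hm1 : (m : ℝ) ≤ N * g y := by rw [hm]; exact Nat.floor_le hNg
  have hm2 : N * g y < m + 1 := by rw [hm]; exact Nat.lt_floor_add_one _
  have hmN : m ≤ N := by
    have h1 : (m : ℝ) ≤ N := hm1.trans (by nlinarith [hg1 y])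
    exact_mod_cast h1
  -- the members of the sum
  have hE : ∀ j, ‖π y (v j) - (if j < m then π y a else 0)‖ ≤
      δ / 2 + (if j = m then ‖a‖ else 0) := by
    intro j
    rcases lt_trichotomy j m with hj | hj | hj
    · rw [if_pos hj, if_neg hj.ne, add_zero]
      have h1 : π y (w j) = 0 := by
        refine (hk y _).2 ((hle _ _).2 ?_ (hw j))
        intro x hx hxy
        have h2 : g (f x) < ((j : ℝ) + 1) / N := hx
        rw [Set.mem_preimage, Set.mem_singleton_iff] at hxy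
        rw [hxy, lt_div_iff₀ hN0] at h2
        have h3 : ((j : ℝ) + 1) ≤ m := by exact_mod_cast hj
        linarith [mul_comm (g y) (N : ℝ)]
      have h2 : π y (v j) - π y a = -(π y (a - v j - w j)) := by
        rw [map_sub, map_sub, h1]; abel
      rw [h2, norm_neg]
      exact (NonUnitalStarAlgHom.norm_apply_le _ _).trans (hvw j)
    · subst hj
      rw [if_neg (lt_irrefl _), if_pos rfl, sub_zero]
      have h1 := (NonUnitalStarAlgHom.norm_apply_le (π y) (v j)).trans (hvn j)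
      linarith
    · rw [if_neg (by omega), if_neg (by omega), sub_zero, add_zero]
      have h1 : π y (v j) = 0 := by
        refine (hk y _).2 ((hle _ _).2 ?_ (hv j))
        intro x hx hxy
        have h2 : (j : ℝ) / N < g (f x) := hx
        rw [Set.mem_preimage, Set.mem_singleton_iff] at hxy
        rw [hxy, div_lt_iff₀ hN0] at h2
        have h3 : (m : ℝ) + 1 ≤ j := by exact_mod_cast hj
        linarith [mul_comm (g y) (N : ℝ)]
      rw [h1, norm_zero]
      linarith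
  have hsum : ‖∑ j ∈ Finset.range N, (π y (v j) - (if j < m then π y a else 0))‖ ≤
      N * (δ / 2) + ‖a‖ := by
    refine (norm_sum_le _ _).trans ((Finset.sum_le_sum fun j _ => hE j).trans ?_)
    rw [Finset.sum_add_distrib, Finset.sum_const, Finset.card_range, nsmul_eq_mul]
    refine add_le_add le_rfl ?_
    rw [Finset.sum_ite_eq']
    split_ifs
    · exact le_rfl
    · exact norm_nonneg _
  have hcount : ∑ j ∈ Finset.range N, (if j < m then π y a else 0) = (m : ℂ) • π y a := by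
    rw [← Finset.sum_filter]
    have h1 : (Finset.range N).filter (fun j => j < m) = Finset.range m := by
      ext j
      simp only [Finset.mem_filter, Finset.mem_range]
      omega
    rw [h1, Finset.sum_const, Finset.card_range, ← Nat.cast_smul_eq_nsmul ℂ]
  have hNc : (N : ℂ) ≠ 0 := by exact_mod_cast hN0.ne'
  have e1 : π y (∑ j ∈ Finset.range N, ((1 / N : ℝ) : ℂ) • v j) - (g y : ℂ) • π y a =
      ((1 / N : ℝ) : ℂ) • (∑ j ∈ Finset.range N, (π y (v j) - (if j < m then π y a else 0))) +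
        (((m : ℝ) / N - g y : ℝ) : ℂ) • π y a := by
    rw [map_sum, Finset.sum_sub_distrib, hcount, smul_sub, Finset.smul_sum, smul_smul]
    simp only [map_smul]
    rw [Complex.ofReal_sub, sub_smul]
    have h1 : ((1 / N : ℝ) : ℂ) * (m : ℂ) = (((m : ℝ) / N : ℝ) : ℂ) := by
      push_cast
      ring
    rw [h1]
    abel
  rw [e1]
  have h1 : |(m : ℝ) / N - g y| ≤ 1 / N := by
    rw [abs_le]
    constructor
    · rw [neg_le_sub_iff_le_add, ← add_div, le_div_iff₀ hN0]
      linarith [mul_comm (g y) (N : ℝ)]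
    · rw [sub_le_iff_le_add, div_le_iff₀ hN0, add_mul, div_mul_cancel₀ _ hN0.ne']
      linarith [mul_comm (g y) (N : ℝ)]
  calc _ ≤ ‖((1 / N : ℝ) : ℂ) •
        (∑ j ∈ Finset.range N, (π y (v j) - (if j < m then π y a else 0)))‖ +
        ‖(((m : ℝ) / N - g y : ℝ) : ℂ) • π y a‖ := norm_add_le _ _
    _ ≤ (1 / N) * (N * (δ / 2) + ‖a‖) + (1 / N) * ‖a‖ := by
        refine add_le_add ?_ ?_
        · rw [norm_smul, Complex.norm_real, Real.norm_eq_abs, abs_of_pos (by positivity)]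
          exact mul_le_mul_of_nonneg_left hsum (by positivity)
        · rw [norm_smul, Complex.norm_real, Real.norm_eq_abs]
          exact mul_le_mul h1 (NonUnitalStarAlgHom.norm_apply_le _ _) (norm_nonneg _)
            (by positivity)
    _ = δ / 2 + 2 * ‖a‖ / N := by
        field_simp
        ring
    _ ≤ δ := by linarith

include he hs hle hf hk in
/-- multiplication by a function -/
theorem exists_mul {g : Y → ℝ} (hg : Continuous g) (hg0 : ∀ y, 0 ≤ g y)
    (hg1 : ∀ y, g y ≤ 1) (a : A) : ∃ b, ∀ y, π y b = (g y : ℂ) • π y a := by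
  have hε : ∀ k : ℕ, (0 : ℝ) < 1 / ((k : ℝ) + 1) := fun k => by positivity
  choose b hb using fun k : ℕ => exists_mul_approx he hs hle hf hZ hk hg hg0 hg1 a (hε k)
  have hanti : ∀ {k l : ℕ}, k ≤ l → 1 / ((l : ℝ) + 1) ≤ 1 / ((k : ℝ) + 1) := by
    intro k l hkl
    have h1 : (k : ℝ) ≤ l := by exact_mod_cast hkl
    exact one_div_le_one_div_of_le (by positivity) (by linarith)
  have hdist : ∀ k l : ℕ, ‖b k - b l‖ ≤ 1 / ((k : ℝ) + 1) + 1 / ((l : ℝ) + 1) := by
    intro k l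
    refine norm_le_of_fibres he hs hle hZ hk (by positivity) fun y => ?_
    have e1 : π y (b k - b l) = (π y (b k) - (g y : ℂ) • π y a) -
        (π y (b l) - (g y : ℂ) • π y a) := by
      rw [map_sub]; abel
    rw [e1]
    exact (norm_sub_le _ _).trans (add_le_add (hb k y) (hb l y))
  have hlim0 : Filter.Tendsto (fun k : ℕ => 1 / ((k : ℝ) + 1)) Filter.atTop (𝓝 0) :=
    tendsto_one_div_add_atTop_nhds_zero_nat
  have hcau : CauchySeq b := by
    refine cauchySeq_of_le_tendsto_0 (fun k : ℕ => 1 / ((k : ℝ) + 1) + 1 / ((k : ℝ) + 1))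
      (fun n m N hn hm => ?_) (by simpa using hlim0.add hlim0)
    rw [dist_eq_norm]
    exact (hdist n m).trans (add_le_add (hanti hn) (hanti hm))
  obtain ⟨c, hc⟩ := cauchySeq_tendsto_of_complete hcau
  refine ⟨c, fun y => ?_⟩
  have h1 : Filter.Tendsto (fun k => π y (b k)) Filter.atTop (𝓝 (π y c)) :=
    ((map_continuous (π y)).tendsto c).comp hc
  have h2 : Filter.Tendsto (fun k => π y (b k)) Filter.atTop (𝓝 ((g y : ℂ) • π y a)) := by
    rw [tendsto_iff_norm_sub_tendsto_zero]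
    exact squeeze_zero (fun k => norm_nonneg _) (fun k => hb k y) hlim0
  exact tendsto_nhds_unique h1 h2

end

/-- **Continuous maps from the primitive ideal space to spaces with property C.** -/
theorem eltPI_of_field {X Y : Type u} [TopologicalSpace X] [TopologicalSpace Y]
    (hYl : LocallyCompactSpace Y) (hY2 : T2Space Y)
    (hC : ∀ K : Set Y, IsCompact K → Vale.Agent.P133.R2.H778.PropertyC K) {f : X → Y}
    (hf : Continuous f) {A : Type u} [NonUnitalCStarAlgebra A] [PartialOrder A] [StarOrderedRing A]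
    {n : ℕ} (hn : WPI A n) (hX : OpenSets X A)
    (h : ∀ (y : Y) (C : Type u) [NonUnitalCStarAlgebra C] [PartialOrder C] [StarOrderedRing C],
      WPI C n → OpenSets (f ⁻¹' {y} : Set X) C → EltPI C) : EltPI A := by
  obtain ⟨e, he, hs, hle⟩ := hX
  have hZ : ∀ y, IsClosed (f ⁻¹' {y}) := fun y => isClosed_singleton.preimage hf
  choose B i1 i2 i3 π hπ hk using fun y => (he (co (hZ y))).quot
  have hB : ∀ y, PurelyInfinite (B y) := fun y =>
    pi_of_eltPI (h y (B y) (wpiE_of_surj hn (π y) (hπ y)) (openSets_quot he hs hle (hZ y) (hπ y)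
      (hk y)))
  refine eltPI_of A ((Vale.Agent.P133.R2.H307.fieldC hC (B := B) (A := A) ?_).1.2 hB)
  refine ⟨π, hπ, fun a r hr h1 => norm_le_of_fibres he hs hle hZ hk hr h1,
    fun a r hr => isCompact_fibres he hs hle hf hZ hk a hr, fun g hg a => ?_⟩
  exact exists_mul he hs hle hf hZ hk g.continuous (fun y => (hg y).1) (fun y => (hg y).2) a

end Vale.Agent.P133.H330
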