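import Vale.Agent.P133.H330.TopBase
import Vale.Agent.P133.H681.WpiIdeal
import Vale.Agent.P133.R2.H474.Her

/-!
P133 (helper330): open subspaces of closed subspaces of the primitive ideal space correspond to
ideals of quotients.
-/

open scoped ComplexOrder

namespace Vale.Agent.P133.H330

open Vale.Agent.P133 Vale.Agent.P133F Vale.Agent.P133.Statement Vale.Agent.P133.H832
  Vale.Agent.P133.H681 TopologicalSpace

universe u

section ideals

variable {B : Type u} [NonUnitalCStarAlgebra B]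

/-- a closed ideal as a subalgebra -/
def idAlg {I : Submodule ℂ B} (hI : IsClosedIdeal I) : NonUnitalStarSubalgebra ℂ B where
  carrier := (I : Set B)
  zero_mem' := I.zero_mem
  add_mem' hx hy := I.add_mem hx hy
  smul_mem' c _ hx := I.smul_mem c hx
  mul_mem' {x _} _ hy := (hI.2 x _ hy).1
  star_mem' {_} hx := by
    let _ : PartialOrder B := CStarAlgebra.spectralOrder B
    let _ : StarOrderedRing B := CStarAlgebra.spectralOrderedRing B
    exact hI.star_mem hx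

/-- a closed ideal as a C*-algebra -/
theorem exists_idAlg {I : Submodule ℂ B} (hI : IsClosedIdeal I) :
    ∃ (D : Type u) (_ : NonUnitalCStarAlgebra D) (_ : PartialOrder D) (_ : StarOrderedRing D)
      (ι : D →⋆ₙₐ[ℂ] B), Function.Injective ι ∧ ∀ x, (∃ d, ι d = x) ↔ x ∈ I := by
  let S := idAlg hI
  let i1 : NonUnitalCStarAlgebra S :=
    NonUnitalStarSubalgebra.nonUnitalCStarAlgebra S (h_closed := hI.1)
  let i2 : PartialOrder S := CStarAlgebra.spectralOrder S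
  let i3 : StarOrderedRing S := CStarAlgebra.spectralOrderedRing S
  let φ : S →⋆ₙₐ[ℂ] B := NonUnitalStarSubalgebraClass.subtype S
  refine ⟨S, i1, i2, i3, φ, Subtype.val_injective, fun x => ⟨?_, fun h => ⟨⟨x, h⟩, rfl⟩⟩⟩
  rintro ⟨y, rfl⟩
  exact y.2

end ideals

section images

variable {B : Type u} [NonUnitalCStarAlgebra B] {D : Type u} [NonUnitalCStarAlgebra D]
  {I : Submodule ℂ B} {ι : D →⋆ₙₐ[ℂ] B}

/-- closed ideals of closed ideals are closed ideals -/
theorem isClosedIdeal_img_ideal (hI : IsClosedIdeal I) (hι : Function.Injective ι)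
    (hr : ∀ x, (∃ d, ι d = x) ↔ x ∈ I) {J : Submodule ℂ D} (hJ : IsClosedIdeal J) :
    IsClosedIdeal (img ι J) := by
  have hiso : Isometry ι := NonUnitalStarAlgHom.isometry ι hι
  have hcl : IsClosed ((img ι J : Submodule ℂ B) : Set B) := by
    have h1 : ((img ι J : Submodule ℂ B) : Set B) = ι '' (J : Set D) := by
      ext x
      constructor
      · rintro ⟨d, hd, rfl⟩; exact ⟨d, hd, rfl⟩
      · rintro ⟨d, hd, rfl⟩; exact ⟨d, hd, rfl⟩
    rw [h1]
    exact hiso.isClosedEmbedding.isClosedMap _ hJ.1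
  refine ⟨hcl, ?_⟩
  rintro b _ ⟨d, hd, rfl⟩
  have key : ∀ ε : ℝ, 0 < ε → (∃ y ∈ img ι J, ‖b * ι d - y‖ ≤ ε) ∧
      (∃ y ∈ img ι J, ‖ι d * b - y‖ ≤ ε) := by
    intro ε hε
    have hε' : 0 < ε / (‖b‖ + 1) := by positivity
    obtain ⟨g, hgs, hg1, hg⟩ := exists_g d hε'
    obtain ⟨k, hk⟩ := (hr (b * ι g)).2 ((hI.2 b _ ((hr _).1 ⟨g, rfl⟩)).1)
    obtain ⟨l, hl⟩ := (hr (ι g * b)).2 ((hI.2 b _ ((hr _).1 ⟨g, rfl⟩)).2)
    have hn : ‖ι (g * d * g - d)‖ ≤ ε / (‖b‖ + 1) :=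
      (NonUnitalStarAlgHom.norm_apply_le ι _).trans hg
    have hb : ‖b‖ * (ε / (‖b‖ + 1)) ≤ ε := by
      rw [mul_div_assoc', div_le_iff₀ (by positivity)]
      nlinarith [norm_nonneg b]
    refine ⟨⟨ι (k * (d * g)), ⟨k * (d * g), (hJ.2 _ _ (hJ.2 _ _ hd).2).1, rfl⟩, ?_⟩,
      ⟨ι (g * d * l), ⟨g * d * l, (hJ.2 _ _ (hJ.2 _ _ hd).1).2, rfl⟩, ?_⟩⟩
    · have e1 : b * ι d - ι (k * (d * g)) = -(b * ι (g * d * g - d)) := by
        rw [map_mul, hk, map_sub, map_mul, map_mul, map_mul, mul_sub]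
        simp only [mul_assoc]
        abel
      rw [e1, norm_neg]
      refine (norm_mul_le _ _).trans (le_trans ?_ hb)
      exact mul_le_mul_of_nonneg_left hn (norm_nonneg _)
    · have e1 : ι d * b - ι (g * d * l) = -(ι (g * d * g - d) * b) := by
        rw [map_mul, hl, map_sub, map_mul, map_mul, map_mul, sub_mul]
        simp only [mul_assoc]
        abel
      rw [e1, norm_neg]
      refine (norm_mul_le _ _).trans (le_trans ?_ hb)
      rw [mul_comm]
      exact mul_le_mul_of_nonneg_left hn (norm_nonneg _)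
  have hlim : ∀ x : B, (∀ ε : ℝ, 0 < ε → ∃ y ∈ img ι J, ‖x - y‖ ≤ ε) → x ∈ img ι J := by
    intro x h
    have h1 : x ∈ closure ((img ι J : Submodule ℂ B) : Set B) :=
      Metric.mem_closure_iff.2 fun ε hε => by
        obtain ⟨y, hy, h1⟩ := h (ε / 2) (half_pos hε)
        exact ⟨y, hy, by rw [dist_eq_norm]; exact h1.trans_lt (half_lt_self hε)⟩
    rwa [hcl.closure_eq] at h1
  exact ⟨hlim _ fun ε hε => (key ε hε).1, hlim _ fun ε hε => (key ε hε).2⟩

theorem pre_img (hι : Function.Injective ι) (J : Submodule ℂ D) : pre ι (img ι J) = J := by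
  ext d
  constructor
  · rintro ⟨d', hd', h⟩
    rwa [hι h] at hd'
  · exact fun h => ⟨d, h, rfl⟩

end images

section spaces

variable {X : Type u} [TopologicalSpace X] {O U : Opens X} {S : Set X}

/-- the open subset of `X` that corresponds to the open subset `W` of the locally closed subspace
`S`, the difference of `U` and `O` -/
def upL (O U : Opens X) {S : Set X} (hS : ∀ x, x ∈ S ↔ x ∈ U ∧ x ∉ O) (W : Opens S) : Opens X :=
  ⟨{x | x ∈ O ∨ ∃ h : x ∈ S, (⟨x, h⟩ : S) ∈ W}, by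
    obtain ⟨V, hV, hVW⟩ := isOpen_induced_iff.1 W.2
    have h1 : ∀ (x : X) (h : x ∈ S), (⟨x, h⟩ : S) ∈ W ↔ x ∈ V := by
      intro x h
      have h3 : (⟨x, h⟩ : S) ∈ W.carrier ↔ x ∈ V := by rw [← hVW]; exact Iff.rfl
      exact h3
    have h2 : {x | x ∈ O ∨ ∃ h : x ∈ S, (⟨x, h⟩ : S) ∈ W} = (O : Set X) ∪ ((U : Set X) ∩ V) := by
      ext x
      constructor
      · rintro (hx | ⟨h, hx⟩)
        · exact Or.inl hx
        · exact Or.inr ⟨((hS x).1 h).1, (h1 x h).1 hx⟩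
      · rintro (hx | ⟨hx, hx'⟩)
        · exact Or.inl hx
        · by_cases hxO : x ∈ O
          · exact Or.inl hxO
          · have h := (hS x).2 ⟨hx, hxO⟩
            exact Or.inr ⟨h, (h1 x h).2 hx'⟩
    rw [h2]
    exact O.2.union (U.2.inter hV)⟩

variable (hS : ∀ x, x ∈ S ↔ x ∈ U ∧ x ∉ O)

theorem mem_upL {W : Opens S} {x : X} :
    x ∈ upL O U hS W ↔ x ∈ O ∨ ∃ h : x ∈ S, (⟨x, h⟩ : S) ∈ W := Iff.rfl

theorem le_upL (W : Opens S) : O ≤ upL O U hS W := fun _ hx => Or.inl hx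

theorem upL_le (W : Opens S) : upL O U hS W ≤ O ⊔ U := by
  rintro x (hx | ⟨h, -⟩)
  · exact Or.inl hx
  · exact Or.inr ((hS x).1 h).1

theorem upL_le_iff {W W' : Opens S} : upL O U hS W ≤ upL O U hS W' ↔ W ≤ W' := by
  constructor
  · intro h x hx
    rcases h (show x.1 ∈ upL O U hS W from Or.inr ⟨x.2, hx⟩) with h1 | ⟨_, h1⟩
    · exact absurd h1 ((hS x.1).1 x.2).2
    · exact h1
  · rintro h x (hx | ⟨h1, hx⟩)
    · exact Or.inl hx
    · exact Or.inr ⟨h1, h hx⟩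

theorem exists_upL {W' : Opens X} (h1 : O ≤ W') (h2 : W' ≤ O ⊔ U) : ∃ W, upL O U hS W = W' := by
  refine ⟨⟨{x | x.1 ∈ W'}, W'.2.preimage continuous_subtype_val⟩, ?_⟩
  ext x
  constructor
  · rintro (hx | ⟨_, hx⟩)
    · exact h1 hx
    · exact hx
  · intro hx
    by_cases hxO : x ∈ O
    · exact Or.inl hxO
    · rcases h2 hx with h3 | h3
      · exact Or.inl h3
      · exact Or.inr ⟨(hS x).2 ⟨h3, hxO⟩, hx⟩

variable {A : Type u} [NonUnitalCStarAlgebra A]

include hS in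
/-- locally closed subspaces correspond to ideals of quotients -/
theorem openSets_sub {e : Opens X → Submodule ℂ A} (he : ∀ O, IsClosedIdeal (e O))
    (hs : ∀ I, IsClosedIdeal I → ∃ O, e O = I) (hle : ∀ O O', e O ≤ e O' ↔ O ≤ O')
    {C : Type u} [NonUnitalCStarAlgebra C] {ψ : A →⋆ₙₐ[ℂ] C}
    (hψ : Function.Surjective ψ) (hk : ∀ x, ψ x = 0 ↔ x ∈ e O)
    {D : Type u} [NonUnitalCStarAlgebra D] {ι : D →⋆ₙₐ[ℂ] C} (hι : Function.Injective ι)
    (hr : ∀ x, (∃ d, ι d = x) ↔ x ∈ img ψ (e (O ⊔ U))) : OpenSets S D := by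
  have hker : ∀ W : Opens X, O ≤ W → ∀ x, ψ x = 0 → x ∈ e W := fun W hW x hx =>
    (hle _ _).2 hW ((hk x).1 hx)
  have hI : IsClosedIdeal (img ψ (e (O ⊔ U))) := isClosedIdeal_img hψ (he _) (hker _ le_sup_left)
  refine ⟨fun W => pre ι (img ψ (e (upL O U hS W))), fun W => isClosedIdeal_pre ι
    (isClosedIdeal_img hψ (he _) (hker _ (le_upL hS W))), fun J hJ => ?_, fun W W' => ?_⟩
  · have hJ' := isClosedIdeal_img_ideal hI hι hr hJ
    obtain ⟨O', hO'⟩ := hs _ (isClosedIdeal_pre ψ hJ')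
    have h1 : O ≤ O' := by
      rw [← hle, hO']
      intro x hx
      rw [mem_pre, (hk x).2 hx]
      exact (img ι J).zero_mem
    have h2 : O' ≤ O ⊔ U := by
      rw [← hle, hO']
      rintro x ⟨d, -, hd⟩
      exact (map_mem_img_iff (hker _ le_sup_left)).1 ((hr _).1 ⟨d, hd⟩)
    obtain ⟨W, rfl⟩ := exists_upL hS h1 h2
    refine ⟨W, ?_⟩
    have h3 : img ψ (pre ψ (img ι J)) = img ι J := by
      ext c
      obtain ⟨a, rfl⟩ := hψ c
      rw [map_mem_img_iff (fun x hx => by rw [mem_pre, hx]; exact (img ι J).zero_mem), mem_pre]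
    show pre ι (img ψ (e (upL O U hS W))) = J
    rw [hO', h3, pre_img hι]
  · show pre ι (img ψ (e (upL O U hS W))) ≤ pre ι (img ψ (e (upL O U hS W'))) ↔ W ≤ W'
    rw [← upL_le_iff hS, ← hle]
    constructor
    · intro h x hx
      obtain ⟨d, hd⟩ := (hr (ψ x)).2 ⟨x, (hle _ _).2 (upL_le hS W) hx, rfl⟩
      have h1 : d ∈ pre ι (img ψ (e (upL O U hS W))) := by
        rw [mem_pre, hd]; exact ⟨x, hx, rfl⟩
      have h2 := h h1
      rw [mem_pre, hd] at h2
      exact (map_mem_img_iff (hker _ (le_upL hS W'))).1 h2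
    · rintro h d ⟨a, ha, had⟩
      exact ⟨a, h ha, had⟩

end spaces

section wpi

variable {A : Type u} [NonUnitalCStarAlgebra A] [PartialOrder A] [StarOrderedRing A]
  {C : Type u} [NonUnitalCStarAlgebra C] [PartialOrder C] [StarOrderedRing C]
  {D : Type u} [NonUnitalCStarAlgebra D] [PartialOrder D] [StarOrderedRing D]

/-- ideals of quotients of weakly purely infinite algebras -/
theorem wpi_sub {n : ℕ} (hn : WPI A n) {ψ : A →⋆ₙₐ[ℂ] C} (hψ : Function.Surjective ψ)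
    {I : Submodule ℂ C} (hI : IsClosedIdeal I) {ι : D →⋆ₙₐ[ℂ] C} (hι : Function.Injective ι)
    (hr : ∀ x, (∃ d, ι d = x) ↔ x ∈ I) : WPI D n := by
  refine Vale.Agent.P133.R2.H474.wpi_of_her ι hι (fun x y w => ?_) (wpiE_of_surj hn ψ hψ)
  exact (hr _).2 (hI.2 _ _ ((hr _).1 ⟨y, rfl⟩)).1

end wpi

end Vale.Agent.P133.H330
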