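import Vale.Agent.P133.H832.TameDef
import Vale.Agent.P133.R2.H778.PropC
import Mathlib.Topology.Sets.Opens
import Mathlib.Topology.Compactness.Compact
import Mathlib.Topology.Bases
import Mathlib.Topology.LocallyClosed

/-!
P133 (helper330): spaces of small transfinite inductive dimension, without separation axioms, and
C*-algebras with a given primitive ideal space.
-/

namespace Vale.Agent.P133.H330

open Vale.Agent.P133.H832 TopologicalSpace

universe u

/-- The least class of spaces such that `X` is in the class in each of the following four cases.
(1) Every nonempty relatively open subset of every closed subset `Y` of `X` contains a nonempty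
relatively open subset `U ∩ Y` which is compact, or is in the class, or whose boundary in `Y` is in
the class (the members of the class that occur are the sets `L k`). (2) There are countably many
subspaces `F k` in the class, which are closed, or locally closed if `X` is second countable, such
that every nonempty relatively open subset of a closed subset of `X` meets one of them. (3) The
open subsets of `X` are totally ordered. (4) There is a continuous map from `X` to a locally
compact Hausdorff space `Y`, such that all compact subsets of `Y` have property C and all fibres of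
the map are in the class. -/
inductive SmallInd : (X : Type u) → [TopologicalSpace X] → Prop
  | intro (X : Type u) [TopologicalSpace X] (K : Type u) (L : K → Set X)
    (h : ∀ Y V : Set X, IsClosed Y → IsOpen V → (V ∩ Y).Nonempty →
      ∃ U : Set X, IsOpen U ∧ (U ∩ Y).Nonempty ∧ U ∩ Y ⊆ V ∧
        (IsCompact (U ∩ Y) ∨ ∃ k : K, U ∩ Y = L k ∨ closure (U ∩ Y) \ U = L k))
    (hL : ∀ k, SmallInd (L k)) : SmallInd X
  | cover (X : Type u) [TopologicalSpace X] (F : ℕ → Set X)
    (hF : (∀ k, IsClosed (F k)) ∨ SecondCountableTopology X ∧ ∀ k, IsLocallyClosed (F k))
    (h : ∀ Y V : Set X, IsClosed Y → IsOpen V → (V ∩ Y).Nonempty →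
      ∃ k, (V ∩ Y ∩ F k).Nonempty)
    (hS : ∀ k, SmallInd (F k)) : SmallInd X
  | chain (X : Type u) [TopologicalSpace X]
    (h : ∀ U V : Set X, IsOpen U → IsOpen V → U ⊆ V ∨ V ⊆ U) : SmallInd X
  | field (X Y : Type u) [TopologicalSpace X] [TopologicalSpace Y] (hYl : LocallyCompactSpace Y)
    (hY2 : T2Space Y) (hC : ∀ K : Set Y, IsCompact K → Vale.Agent.P133.R2.H778.PropertyC K)
    (f : X → Y) (hf : Continuous f) (hS : ∀ y, SmallInd (f ⁻¹' {y})) : SmallInd X

/-- `X` has the same lattice of open sets as the primitive ideal space of `A`: its open sets
correspond to the closed ideals of `A`. -/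
def OpenSets (X : Type u) [TopologicalSpace X] (A : Type u) [NonUnitalCStarAlgebra A] : Prop :=
  ∃ e : Opens X → Submodule ℂ A, (∀ O, IsClosedIdeal (e O)) ∧
    (∀ I, IsClosedIdeal I → ∃ O, e O = I) ∧ ∀ O O', e O ≤ e O' ↔ O ≤ O'

/-- the spaces whose small transfinite inductive dimension is defined: the least class of spaces
such that `X` is in the class if `X` has a base of open sets with boundaries in the class -/
inductive TInd : (X : Type u) → [TopologicalSpace X] → Prop
  | intro (X : Type u) [TopologicalSpace X] (K : Type u) (L : K → Set X)
    (h : ∀ (x : X) (V : Set X), IsOpen V → x ∈ V →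
      ∃ (k : K) (U : Set X), IsOpen U ∧ x ∈ U ∧ U ⊆ V ∧ frontier U = L k)
    (hL : ∀ k, TInd (L k)) : TInd X

end Vale.Agent.P133.H330
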