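import Vale.Agent.P133.H330.Ann
import Vale.Agent.P133.H330.TopDefs
import Vale.Agent.P133.H681.WpiUncond
import Vale.Agent.P133.H832.ExtN
import Vale.Agent.P133.H832.Coincide
import Mathlib.Analysis.CStarAlgebra.Hom
import Mathlib.Topology.NoetherianSpace
import Mathlib.Topology.Sets.Opens

/-!
P133 (helper330): closed subspaces of the primitive ideal space correspond to quotients.
-/

open scoped ComplexOrder CStarAlgebra

namespace Vale.Agent.P133.H330

open Vale.Agent.P133 Vale.Agent.P133F Vale.Agent.P133.Statement Vale.Agent.P133.H832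
  Vale.Agent.P133.H681 TopologicalSpace

universe u

section quot

variable {A : Type u} [NonUnitalCStarAlgebra A] {C : Type u} [NonUnitalCStarAlgebra C]

/-- the image of a submodule -/
def img (ψ : A →⋆ₙₐ[ℂ] C) (I : Submodule ℂ A) : Submodule ℂ C where
  carrier := {c | ∃ a ∈ I, ψ a = c}
  add_mem' := by
    rintro _ _ ⟨j, hj, rfl⟩ ⟨j', hj', rfl⟩
    exact ⟨j + j', I.add_mem hj hj', map_add ψ _ _⟩
  zero_mem' := ⟨0, I.zero_mem, map_zero ψ⟩
  smul_mem' := by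
    rintro c _ ⟨j, hj, rfl⟩
    exact ⟨c • j, I.smul_mem c hj, map_smul ψ _ _⟩

/-- the preimage of a submodule -/
def pre (ψ : A →⋆ₙₐ[ℂ] C) (J : Submodule ℂ C) : Submodule ℂ A where
  carrier := {a | ψ a ∈ J}
  add_mem' := fun {p q} hp hq => by
    show ψ (p + q) ∈ J
    rw [map_add]; exact J.add_mem hp hq
  zero_mem' := by show ψ 0 ∈ J; rw [map_zero]; exact J.zero_mem
  smul_mem' := fun c x hx => by
    show ψ (c • x) ∈ J
    rw [map_smul]; exact J.smul_mem c hx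

theorem mem_img {ψ : A →⋆ₙₐ[ℂ] C} {I : Submodule ℂ A} {c : C} :
    c ∈ img ψ I ↔ ∃ a ∈ I, ψ a = c := Iff.rfl

theorem mem_pre {ψ : A →⋆ₙₐ[ℂ] C} {J : Submodule ℂ C} {a : A} : a ∈ pre ψ J ↔ ψ a ∈ J := Iff.rfl

theorem isClosedIdeal_pre (ψ : A →⋆ₙₐ[ℂ] C) {J : Submodule ℂ C} (hJ : IsClosedIdeal J) :
    IsClosedIdeal (pre ψ J) := by
  have hc : Continuous ψ := map_continuous ψ
  refine ⟨hJ.1.preimage hc, fun a x hx => ⟨?_, ?_⟩⟩
  · rw [mem_pre, map_mul]; exact (hJ.2 _ _ hx).1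
  · rw [mem_pre, map_mul]; exact (hJ.2 _ _ hx).2

theorem map_mem_img_iff {ψ : A →⋆ₙₐ[ℂ] C} {I : Submodule ℂ A} (hI : ∀ x, ψ x = 0 → x ∈ I)
    {a : A} : ψ a ∈ img ψ I ↔ a ∈ I := by
  constructor
  · rintro ⟨b, hb, hba⟩
    have h1 : a - b ∈ I := hI _ (by rw [map_sub, hba, sub_self])
    have h2 := I.add_mem h1 hb
    rwa [sub_add_cancel] at h2
  · exact fun h => ⟨a, h, rfl⟩

theorem limC {I : Submodule ℂ A} (hI : IsClosedIdeal I) {x : A}
    (h : ∀ ε : ℝ, 0 < ε → ∃ y ∈ I, ‖x - y‖ ≤ ε) : x ∈ I := by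
  have h1 : x ∈ closure (I : Set A) := Metric.mem_closure_iff.2 fun ε hε => by
    obtain ⟨y, hy, h1⟩ := h (ε / 2) (half_pos hε)
    exact ⟨y, hy, by rw [dist_eq_norm]; exact h1.trans_lt (half_lt_self hε)⟩
  rwa [hI.1.closure_eq] at h1

theorem isClosedIdeal_img {ψ : A →⋆ₙₐ[ℂ] C} (hψ : Function.Surjective ψ) {I : Submodule ℂ A}
    (hI : IsClosedIdeal I) (hk : ∀ x, ψ x = 0 → x ∈ I) : IsClosedIdeal (img ψ I) := by
  refine ⟨?_, fun c x hx => ?_⟩
  · refine isClosed_of_closure_subset fun c hc => ?_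
    obtain ⟨a, rfl⟩ := hψ c
    refine (map_mem_img_iff hk).2 (limC hI fun ε hε => ?_)
    obtain ⟨c', ⟨a', ha', rfl⟩, hcc⟩ := Metric.mem_closure_iff.1 hc ε hε
    rw [dist_eq_norm, ← map_sub] at hcc
    obtain ⟨y, hy, hyn⟩ := exists_lift ψ (a - a') hε hcc.le
    refine ⟨a - y, ?_, ?_⟩
    · have h1 : a - a' - y ∈ I := hk _ (by rw [map_sub, hy, sub_self])
      have h2 := I.add_mem h1 ha'
      have h3 : a - a' - y + a' = a - y := by abel
      rwa [h3] at h2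
    · have h3 : a - (a - y) = y := by abel
      rw [h3]; exact hyn
  · obtain ⟨b, rfl⟩ := hψ c
    obtain ⟨a, ha, rfl⟩ := hx
    exact ⟨⟨b * a, (hI.2 b a ha).1, map_mul ψ _ _⟩, ⟨a * b, (hI.2 b a ha).2, map_mul ψ _ _⟩⟩

end quot

section spaces

variable {X : Type u} [TopologicalSpace X] {Z : Set X}

/-- the open subset of `X` that corresponds to the open subset `W` of the closed subspace `Z` -/
def up (hZ : IsClosed Z) (W : Opens Z) : Opens X :=
  ⟨{x | ∀ h : x ∈ Z, (⟨x, h⟩ : Z) ∈ W}, by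
    obtain ⟨V, hV, hVW⟩ := isOpen_induced_iff.1 W.2
    have h1 : ∀ (x : X) (h : x ∈ Z), (⟨x, h⟩ : Z) ∈ W ↔ x ∈ V := by
      intro x h
      have h3 : (⟨x, h⟩ : Z) ∈ W.carrier ↔ x ∈ V := by rw [← hVW]; exact Iff.rfl
      exact h3
    have h2 : {x | ∀ h : x ∈ Z, (⟨x, h⟩ : Z) ∈ W} = Zᶜ ∪ V := by
      ext x
      constructor
      · intro hx
        by_cases h : x ∈ Z
        · exact Or.inr ((h1 x h).1 (hx h))
        · exact Or.inl h
      · rintro (h | h) h'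
        · exact absurd h' h
        · exact (h1 x h').2 h
    rw [h2]
    exact hZ.isOpen_compl.union hV⟩

/-- the complement of a closed set -/
def co (hZ : IsClosed Z) : Opens X := ⟨Zᶜ, hZ.isOpen_compl⟩

theorem co_le_up (hZ : IsClosed Z) (W : Opens Z) : co hZ ≤ up hZ W :=
  fun _ hx h => absurd h hx

theorem up_le_iff (hZ : IsClosed Z) {W W' : Opens Z} : up hZ W ≤ up hZ W' ↔ W ≤ W' := by
  constructor
  · intro h x hx
    exact h (show x.1 ∈ up hZ W from fun _ => hx) x.2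
  · exact fun h x hx hxZ => h (hx hxZ)

theorem exists_up (hZ : IsClosed Z) {O : Opens X} (hO : co hZ ≤ O) : ∃ W, up hZ W = O := by
  refine ⟨⟨{x | x.1 ∈ O}, O.2.preimage continuous_subtype_val⟩, ?_⟩
  ext x
  constructor
  · intro hx
    by_cases h : x ∈ Z
    · exact hx h
    · exact hO h
  · intro hx _
    exact hx

variable {A : Type u} [NonUnitalCStarAlgebra A]

/-- closed subspaces correspond to quotients -/
theorem openSets_quot {e : Opens X → Submodule ℂ A} (he : ∀ O, IsClosedIdeal (e O))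
    (hs : ∀ I, IsClosedIdeal I → ∃ O, e O = I) (hle : ∀ O O', e O ≤ e O' ↔ O ≤ O')
    (hZ : IsClosed Z) {C : Type u} [NonUnitalCStarAlgebra C] {ψ : A →⋆ₙₐ[ℂ] C}
    (hψ : Function.Surjective ψ) (hk : ∀ x, ψ x = 0 ↔ x ∈ e (co hZ)) : OpenSets Z C := by
  have hker : ∀ W : Opens Z, ∀ x, ψ x = 0 → x ∈ e (up hZ W) := fun W x hx =>
    (hle _ _).2 (co_le_up hZ W) ((hk x).1 hx)
  refine ⟨fun W => img ψ (e (up hZ W)), fun W => isClosedIdeal_img hψ (he _) (hker W),
    fun J hJ => ?_, fun W W' => ?_⟩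
  · obtain ⟨O, hO⟩ := hs _ (isClosedIdeal_pre ψ hJ)
    have h1 : co hZ ≤ O := by
      rw [← hle, hO]
      intro x hx
      rw [mem_pre, (hk x).2 hx]
      exact J.zero_mem
    obtain ⟨W, rfl⟩ := exists_up hZ h1
    refine ⟨W, ?_⟩
    ext c
    obtain ⟨a, rfl⟩ := hψ c
    show ψ a ∈ img ψ (e (up hZ W)) ↔ ψ a ∈ J
    rw [map_mem_img_iff (hker W), hO, mem_pre]
  · show img ψ (e (up hZ W)) ≤ img ψ (e (up hZ W')) ↔ W ≤ W'
    rw [← up_le_iff hZ, ← hle]
    constructor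
    · intro h x hx
      exact (map_mem_img_iff (hker W')).1 (h ((map_mem_img_iff (hker W)).2 hx))
    · rintro h _ ⟨a, ha, rfl⟩
      exact ⟨a, h ha, rfl⟩

end spaces

section factor

variable {A : Type u} [NonUnitalCStarAlgebra A] [PartialOrder A] [StarOrderedRing A]
  {C : Type u} [NonUnitalCStarAlgebra C] [PartialOrder C] [StarOrderedRing C]
  {B : Type u} [NonUnitalCStarAlgebra B] [PartialOrder B] [StarOrderedRing B]

omit [PartialOrder A] [StarOrderedRing A] [PartialOrder C] [StarOrderedRing C]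
  [PartialOrder B] [StarOrderedRing B] in
theorem norm_le_of_ker {ψ : A →⋆ₙₐ[ℂ] C} {φ : A →⋆ₙₐ[ℂ] B} (h : ∀ x, ψ x = 0 → φ x = 0) (x : A) :
    ‖φ x‖ ≤ ‖ψ x‖ := by
  refine le_of_forall_pos_le_add fun ε hε => ?_
  obtain ⟨y, hy, hyn⟩ := exists_lift ψ x (ε := ‖ψ x‖ + ε) (by positivity) (by linarith)
  have h1 : φ x = φ y := by
    rw [← sub_eq_zero, ← map_sub]
    exact h _ (by rw [map_sub, hy, sub_self])
  rw [h1]
  exact (NonUnitalStarAlgHom.norm_apply_le φ y).trans hyn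

omit [PartialOrder A] [StarOrderedRing A] in
/-- a quotient of a purely infinite quotient is purely infinite -/
theorem eltPI_factor {ψ : A →⋆ₙₐ[ℂ] C} (hψ : Function.Surjective ψ) {φ : A →⋆ₙₐ[ℂ] B}
    (hφ : Function.Surjective φ) (h : ∀ x, ψ x = 0 → φ x = 0) (hC : EltPI C) : EltPI B := by
  intro b hb ε hε
  obtain ⟨y, rfl⟩ := CStarAlgebra.nonneg_iff_eq_star_mul_self.1 hb
  obtain ⟨y, rfl⟩ := hφ y
  obtain ⟨u, v, h1, h2, h3⟩ := hC (star (ψ y) * ψ y) (star_mul_self_nonneg _) ε hε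
  obtain ⟨u, rfl⟩ := hψ u
  obtain ⟨v, rfl⟩ := hψ v
  refine ⟨φ u, φ v, ?_, ?_, ?_⟩
  · refine lt_of_le_of_lt ?_ h1
    have h4 := norm_le_of_ker h (star u * (star y * y) * u - star y * y)
    simpa only [map_sub, map_mul, map_star] using h4
  · refine lt_of_le_of_lt ?_ h2
    have h4 := norm_le_of_ker h (star v * (star y * y) * v - star y * y)
    simpa only [map_sub, map_mul, map_star] using h4
  · refine lt_of_le_of_lt ?_ h3
    have h4 := norm_le_of_ker h (star u * (star y * y) * v)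
    simpa only [map_mul, map_star] using h4

end factor

section main

/-- the lattice operations -/
theorem e_inf {X : Type u} [TopologicalSpace X] {A : Type u} [NonUnitalCStarAlgebra A]
    {e : Opens X → Submodule ℂ A} (he : ∀ O, IsClosedIdeal (e O))
    (hs : ∀ I, IsClosedIdeal I → ∃ O, e O = I) (hle : ∀ O O', e O ≤ e O' ↔ O ≤ O')
    (O O' : Opens X) : e O ⊓ e O' ≤ e (O ⊓ O') := by
  obtain ⟨W, hW⟩ := hs _ (isClosedIdeal_inf (he O) (he O'))
  rw [← hW, hle]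
  refine le_inf ?_ ?_
  · rw [← hle, hW]; exact inf_le_left
  · rw [← hle, hW]; exact inf_le_right

theorem e_le_of {X : Type u} [TopologicalSpace X] {A : Type u} [NonUnitalCStarAlgebra A]
    {e : Opens X → Submodule ℂ A}
    (hs : ∀ I, IsClosedIdeal I → ∃ O, e O = I) (hle : ∀ O O', e O ≤ e O' ↔ O ≤ O')
    {O O' W : Opens X} (hW : W ≤ O ⊔ O') {J : Submodule ℂ A} (hJ : IsClosedIdeal J)
    (h1 : e O ≤ J) (h2 : e O' ≤ J) : e W ≤ J := by
  obtain ⟨V, rfl⟩ := hs _ hJ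
  exact (hle _ _).2 (hW.trans (sup_le ((hle _ _).1 h1) ((hle _ _).1 h2)))

end main

end Vale.Agent.P133.H330
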