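import Vale.Agent.P133.H330.TopPieces
import Vale.Agent.P133.H330.TopField
import Vale.Agent.P133.H681.Chain2
import Vale.Agent.P133.H512.Ind4
import Vale.Agent.P133.H216.Compact
import Vale.Agent.P133.H779.CompactTop
import Vale.Agent.P133.H294.Weak

/-!
P133 (helper330): spaces of small transfinite inductive dimension, without separation axioms, as
primitive ideal spaces.
-/

open scoped ComplexOrder CStarAlgebra

namespace Vale.Agent.P133.H330

open Vale.Agent.P133 Vale.Agent.P133F Vale.Agent.P133.Statement Vale.Agent.P133.H832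
  Vale.Agent.P133.H681 TopologicalSpace

universe u

section main

/-- the inductive step -/
theorem eltPI_of_boundaries {X : Type u} [TopologicalSpace X] {A : Type u}
    [NonUnitalCStarAlgebra A] [PartialOrder A] [StarOrderedRing A] {n : ℕ} (hn : WPI A n)
    (hX : OpenSets X A)
    (h : ∀ Y V : Set X, IsClosed Y → IsOpen V → (V ∩ Y).Nonempty →
      ∃ U : Set X, IsOpen U ∧ (U ∩ Y).Nonempty ∧ U ∩ Y ⊆ V ∧ (IsCompact (U ∩ Y) ∨
        (∀ (C : Type u) [NonUnitalCStarAlgebra C] [PartialOrder C] [StarOrderedRing C],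
          WPI C n → OpenSets (U ∩ Y : Set X) C → EltPI C) ∨
        ∀ (C : Type u) [NonUnitalCStarAlgebra C] [PartialOrder C] [StarOrderedRing C],
          WPI C n → OpenSets (closure (U ∩ Y) \ U : Set X) C → EltPI C)) : EltPI A := by
  obtain ⟨e, he, hs, hle⟩ := hX
  refine Vale.Agent.P133.H512.eltPI_of_ind4 hn fun K K' hK hK' hKK => ?_
  obtain ⟨O, rfl⟩ := hs K hK
  obtain ⟨O', rfl⟩ := hs K' hK'
  have hOO : O ≤ O' := (hle _ _).1 hKK.le
  have hne : ¬ O' ≤ O := fun h1 => hKK.not_ge ((hle _ _).2 h1)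
  obtain ⟨x, hx', hx⟩ := Set.not_subset.1 (show ¬ (O' : Set X) ⊆ (O : Set X) from hne)
  obtain ⟨U, hU, hUne, hUV, hC⟩ := h (O : Set X)ᶜ O' O.2.isClosed_compl O'.2 ⟨x, hx', hx⟩
  have hcl : IsClosed (closure (U ∩ (O : Set X)ᶜ) \ U) := isClosed_closure.sdiff hU
  -- the closed set and the two open sets of which it is the complement
  set W₀ : Opens X := ⟨(closure (U ∩ (O : Set X)ᶜ))ᶜ, isClosed_closure.isOpen_compl⟩ with hW₀
  set U' : Opens X := ⟨U, hU⟩ with hU'
  have hUO : U ⊆ O' := fun y hy => by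
    by_cases h1 : y ∈ (O : Set X)
    · exact hOO h1
    · exact hUV ⟨hy, h1⟩
  have hlt : O < O ⊔ U' := by
    refine lt_of_le_not_ge le_sup_left fun h1 => ?_
    obtain ⟨y, hyU, hyO⟩ := hUne
    exact hyO (h1 (show y ∈ O ⊔ U' from Or.inr hyU))
  refine ⟨e (O ⊔ U'), he _, lt_of_le_not_ge ((hle _ _).2 hlt.le) fun h1 =>
    hlt.not_ge ((hle _ _).1 h1), (hle _ _).2 (sup_le hOO hUO), ?_⟩
  rcases hC with hcomp | hC | hC
  · right; left
    have h1 : co O.2.isClosed_compl = O := by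
      ext t
      exact not_not
    have h2 : ((O ⊔ U' : Opens X) : Set X) ∩ (O : Set X)ᶜ = U ∩ (O : Set X)ᶜ := by
      ext t
      constructor
      · rintro ⟨h3 | h3, h4⟩
        · exact absurd h3 h4
        · exact ⟨h3, h4⟩
      · rintro ⟨h3, h4⟩
        exact ⟨Or.inr h3, h4⟩
    rw [← h2] at hcomp
    have h3 := Vale.Agent.P133.H779.compactMod_of_isCompact he hs hle O.2.isClosed_compl
      (O := O ⊔ U') hcomp
    rwa [h1] at h3
  · right; right
    intro C _ _ _ ψ hψ hψk D _ _ _ ι hι hr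
    have hr' : ∀ x, (∃ d, ι d = x) ↔ x ∈ img ψ (e (O ⊔ U')) := hr
    refine hC D (wpi_sub hn hψ (isClosedIdeal_img hψ (he _) fun x hx => ?_) hι hr')
      (openSets_sub (O := O) (U := U') (fun x => ?_) he hs hle hψ hψk hι hr')
    · exact (hle _ _).2 le_sup_left ((hψk x).1 hx)
    · exact Iff.rfl
  left
  intro B _ _ _ φ hφ hker
  -- `W₀` belongs to the colon ideal
  have hcolI : IsClosedIdeal (Vale.Agent.P133.H779.colon (e O) (e (O ⊔ U'))) :=
    Vale.Agent.P133.H779.isClosedIdeal_colon (he _) (he _)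
  have hcol : e W₀ ≤ Vale.Agent.P133.H779.colon (e O) (e (O ⊔ U')) := by
    intro z hz y hy
    have h1 : z * y ∈ e W₀ ⊓ e (O ⊔ U') := ⟨((he W₀).2 y z hz).2, ((he _).2 z y hy).1⟩
    have h2 : W₀ ⊓ (O ⊔ U') ≤ O := by
      rintro t ⟨ht1, ht2⟩
      by_contra htO
      rcases ht2 with ht2 | ht2
      · exact htO ht2
      · exact ht1 (subset_closure ⟨ht2, htO⟩)
    exact (hle _ _).2 h2 (e_inf he hs hle _ _ h1)
  obtain ⟨C, i1, i2, i3, ψ, hψ, hψk⟩ := (he (co hcl)).quot
  have hCpi : EltPI C := hC C (wpiE_of_surj hn ψ hψ) (openSets_quot he hs hle hcl hψ hψk)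
  refine eltPI_factor hψ hφ (fun z hz => (hker z).2 ?_) hCpi
  have h3 : e (co hcl) ≤ (e (O ⊔ U') ⊔
      Vale.Agent.P133.H779.colon (e O) (e (O ⊔ U'))).topologicalClosure := by
    refine e_le_of (O := U') (O' := W₀) hs hle ?_ (isClosedIdeal_sup (he _) hcolI) ?_ ?_
    · intro t ht
      by_cases htU : t ∈ U
      · exact Or.inl htU
      · exact Or.inr fun h4 => ht ⟨h4, htU⟩
    · exact ((hle _ _).2 le_sup_right).trans (le_closure_left _ _)
    · exact hcol.trans (le_closure_right _ _)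
  exact h3 ((hψk z).1 hz)

/-- the step with covers -/
theorem eltPI_of_cover {X : Type u} [TopologicalSpace X] {A : Type u}
    [NonUnitalCStarAlgebra A] [PartialOrder A] [StarOrderedRing A] {n : ℕ} (hn : WPI A n)
    (hX : OpenSets X A) {F : ℕ → Set X} (hF : ∀ k, IsClosed (F k))
    (h : ∀ Y V : Set X, IsClosed Y → IsOpen V → (V ∩ Y).Nonempty → ∃ k, (V ∩ Y ∩ F k).Nonempty)
    (hC : ∀ (k : ℕ) (C : Type u) [NonUnitalCStarAlgebra C] [PartialOrder C] [StarOrderedRing C],
      WPI C n → OpenSets (F k) C → EltPI C) : EltPI A := by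
  obtain ⟨e, he, hs, hle⟩ := hX
  refine Vale.Agent.P133.H294.eltPI_of_weakCover hn (J := fun k => e (co (hF k)))
    (fun k => he _) (fun P hP x hx => ?_) fun k B _ _ _ φ hφ hk => hC k B (wpiE_of_surj hn φ hφ)
      (openSets_quot he hs hle (hF k) hφ hk)
  obtain ⟨O, rfl⟩ := hs P hP
  have h1 : ∀ k, x ∈ e (O ⊔ co (hF k)) := fun k => by
    have h2 : (e O ⊔ e (co (hF k))).topologicalClosure ≤ e (O ⊔ co (hF k)) :=
      Submodule.topologicalClosure_minimal _
        (sup_le ((hle _ _).2 le_sup_left) ((hle _ _).2 le_sup_right)) (he _).1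
    exact h2 (hx k)
  -- the open set of the intersection
  have hI : IsClosedIdeal (⨅ k, e (O ⊔ co (hF k))) := by
    refine ⟨?_, fun a y hy => ?_⟩
    · have h2 : ((⨅ k, e (O ⊔ co (hF k)) : Submodule ℂ A) : Set A) =
          ⋂ k, (e (O ⊔ co (hF k)) : Set A) := by
        ext z; simp
      rw [h2]
      exact isClosed_iInter fun k => (he _).1
    · simp only [Submodule.mem_iInf] at hy ⊢
      exact ⟨fun k => ((he _).2 a y (hy k)).1, fun k => ((he _).2 a y (hy k)).2⟩
  obtain ⟨W, hW⟩ := hs _ hI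
  have hWk : ∀ k, W ≤ O ⊔ co (hF k) := fun k => by
    rw [← hle, hW]; exact iInf_le _ k
  have hWO : W ≤ O := by
    by_contra hno
    obtain ⟨t, htW, htO⟩ := Set.not_subset.1 (show ¬ (W : Set X) ⊆ (O : Set X) from hno)
    obtain ⟨k, s, ⟨hsW, hsO⟩, hsF⟩ := h (O : Set X)ᶜ W O.2.isClosed_compl W.2 ⟨t, htW, htO⟩
    rcases hWk k hsW with h2 | h2
    · exact hsO h2
    · exact h2 hsF
  refine (hle _ _).2 hWO ?_
  rw [hW, Submodule.mem_iInf]
  exact h1

/-- totally ordered open sets -/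
theorem eltPI_of_chain {X : Type u} [TopologicalSpace X] {A : Type u}
    [NonUnitalCStarAlgebra A] [PartialOrder A] [StarOrderedRing A] {n : ℕ} (hn : WPI A n)
    (hX : OpenSets X A) (h : ∀ U V : Set X, IsOpen U → IsOpen V → U ⊆ V ∨ V ⊆ U) : EltPI A := by
  obtain ⟨e, he, hs, hle⟩ := hX
  refine eltPI_chain (fun a b => ?_) (wpi_of_elt hn)
  have key : ∀ a b : A, ∀ Va Vb : Opens X, (∀ O, a ∈ e O ↔ Va ≤ O) → (∀ O, b ∈ e O ↔ Vb ≤ O) →
      Vb ≤ Va → InId a b := by
    intro a b Va Vb ha hb hab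
    obtain ⟨I, hI, hI'⟩ := isClosedIdeal_inId a
    obtain ⟨O, rfl⟩ := hs I hI
    exact (hI' b).1 ((hb O).2 (hab.trans ((ha O).1 ((hI' a).2 (InId.refl a)))))
  obtain ⟨Va, ha⟩ := exists_supp he hs hle a
  obtain ⟨Vb, hb⟩ := exists_supp he hs hle b
  rcases h Va Vb Va.2 Vb.2 with h1 | h1
  · exact Or.inr (key b a Vb Va hb ha h1)
  · exact Or.inl (key a b Va Vb ha hb h1)

/-- the algebras over a space of the class -/
theorem eltPI_of_smallInd {X : Type u} [TopologicalSpace X] (hX : SmallInd X) :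
    ∀ (A : Type u) [NonUnitalCStarAlgebra A] [PartialOrder A] [StarOrderedRing A] (n : ℕ),
      WPI A n → OpenSets X A → EltPI A := by
  induction hX with
  | intro X K L h hL ih =>
    intro A _ _ _ n hn hXA
    refine eltPI_of_boundaries hn hXA fun Y V hY hV hVY => ?_
    obtain ⟨U, hU, hUY, hUV, hk⟩ := h Y V hY hV hVY
    refine ⟨U, hU, hUY, hUV, ?_⟩
    rcases hk with hk | ⟨k, hk | hk⟩
    · exact Or.inl hk
    · refine Or.inr (Or.inl fun C _ _ _ hC hCX => ?_)
      rw [hk] at hCX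
      exact ih k C n hC hCX
    · refine Or.inr (Or.inr fun C _ _ _ hC hCX => ?_)
      rw [hk] at hCX
      exact ih k C n hC hCX
  | cover X F hF h hS ih =>
    intro A _ _ _ n hn hXA
    rcases hF with hF | ⟨hX, hF⟩
    · exact eltPI_of_cover hn hXA hF h fun k C _ _ _ hC hCX => ih k C n hC hCX
    · exact eltPI_of_pieces_top hn hXA hF h fun k C _ _ _ hC hCX => ih k C n hC hCX
  | chain X h =>
    intro A _ _ _ n hn hXA
    exact eltPI_of_chain hn hXA h
  | field X Y hYl hY2 hC f hf hS ih =>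
    intro A _ _ _ n hn hXA
    exact eltPI_of_field hYl hY2 hC hf hn hXA fun y C _ _ _ hC hCX => ih y C n hC hCX

theorem coincide_of_smallInd {X : Type u} [TopologicalSpace X] (hX : SmallInd X)
    {A : Type u} [NonUnitalCStarAlgebra A] [PartialOrder A] [StarOrderedRing A]
    (hXA : OpenSets X A) : Coincide A := by
  refine wpi_iff_pi_of fun hW => ?_
  obtain ⟨n, hn⟩ := wpi_elementwise hW
  exact pi_of_eltPI (eltPI_of_smallInd hX A n hn hXA)

end main

section examples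

theorem smallInd_of {X : Type u} [TopologicalSpace X]
    (h : ∀ Y V : Set X, IsClosed Y → IsOpen V → (V ∩ Y).Nonempty →
      ∃ U : Set X, IsOpen U ∧ (U ∩ Y).Nonempty ∧ U ∩ Y ⊆ V ∧
        (IsCompact (U ∩ Y) ∨ SmallInd (U ∩ Y : Set X) ∨
          SmallInd (closure (U ∩ Y) \ U : Set X))) : SmallInd X := by
  refine SmallInd.intro X {S : Set X // SmallInd S} (fun k => k.1) (fun Y V hY hV hVY => ?_)
    fun k => k.2
  obtain ⟨U, hU, h1, h2, h3⟩ := h Y V hY hV hVY
  refine ⟨U, hU, h1, h2, h3.imp id fun h3 => ?_⟩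
  rcases h3 with h3 | h3
  · exact ⟨⟨_, h3⟩, Or.inl rfl⟩
  · exact ⟨⟨_, h3⟩, Or.inr rfl⟩

theorem cover_preimage {X Z : Type u} [TopologicalSpace X] [TopologicalSpace Z] {f : Z → X}
    (hf : Topology.IsInducing f) {F : ℕ → Set X}
    (hF : (∀ k, IsClosed (F k)) ∨ SecondCountableTopology X ∧ ∀ k, IsLocallyClosed (F k)) :
    (∀ k, IsClosed (f ⁻¹' (F k))) ∨
      SecondCountableTopology Z ∧ ∀ k, IsLocallyClosed (f ⁻¹' (F k)) := by
  rcases hF with hF | ⟨hX, hF⟩
  · exact Or.inl fun k => (hF k).preimage hf.continuous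
  · exact Or.inr ⟨hf.secondCountableTopology, fun k => (hF k).preimage hf.continuous⟩

theorem chain_preimage {X Z : Type u} [TopologicalSpace X] [TopologicalSpace Z] {f : Z → X}
    (hf : Topology.IsInducing f) (h : ∀ U V : Set X, IsOpen U → IsOpen V → U ⊆ V ∨ V ⊆ U) :
    ∀ U V : Set Z, IsOpen U → IsOpen V → U ⊆ V ∨ V ⊆ U := by
  intro U V hU hV
  obtain ⟨U', hU', rfl⟩ := hf.isOpen_iff.1 hU
  obtain ⟨V', hV', rfl⟩ := hf.isOpen_iff.1 hV
  exact (h U' V' hU' hV').imp Set.preimage_mono Set.preimage_mono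

/-- closed subspaces -/
theorem smallInd_embedding {X : Type u} [TopologicalSpace X] (hX : SmallInd X) :
    ∀ (Z : Type u) [TopologicalSpace Z] (f : Z → X), Topology.IsClosedEmbedding f →
      SmallInd Z := by
  induction hX with
  | intro X K L h hL ih =>
    intro Z _ f hf
    refine SmallInd.intro Z K (fun k => f ⁻¹' (L k)) (fun Y V hY hV hVY => ?_) fun k => ?_
    · obtain ⟨V', hV', rfl⟩ := hf.isInducing.isOpen_iff.1 hV
      obtain ⟨y, hyV, hyY⟩ := hVY
      obtain ⟨U, hU, ⟨w, hwU, z, hz, hzw⟩, hUV, hk⟩ := h (f '' Y) V' (hf.isClosedMap Y hY) hV'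
        ⟨f y, hyV, y, hyY, rfl⟩
      subst hzw
      have h1 : f '' (f ⁻¹' U ∩ Y) = U ∩ f '' Y := by
        ext t
        constructor
        · rintro ⟨s, ⟨hs1, hs2⟩, rfl⟩
          exact ⟨hs1, s, hs2, rfl⟩
        · rintro ⟨hs1, s, hs2, rfl⟩
          exact ⟨s, ⟨hs1, hs2⟩, rfl⟩
      refine ⟨f ⁻¹' U, hU.preimage hf.continuous, ⟨z, hwU, hz⟩, ?_, ?_⟩
      · rintro t ⟨ht1, ht2⟩
        exact hUV ⟨ht1, t, ht2, rfl⟩
      · rcases hk with hk | ⟨k, hk | hk⟩
        · left
          rw [hf.isInducing.isCompact_iff, h1]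
          exact hk
        · right
          refine ⟨k, Or.inl ?_⟩
          rw [← hk, ← h1, Set.preimage_image_eq _ hf.injective]
        right
        refine ⟨k, Or.inr ?_⟩
        rw [← hk, ← h1, hf.closure_image_eq]
        ext t
        constructor
        · rintro ⟨h2, h3⟩
          exact ⟨⟨t, h2, rfl⟩, h3⟩
        · rintro ⟨⟨s, h2, h4⟩, h3⟩
          rw [hf.injective h4] at h2
          exact ⟨h2, h3⟩
    · exact ih k _ (fun x : f ⁻¹' (L k) => (⟨f x.1, x.2⟩ : L k)) (hf.restrictPreimage (L k))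
  | cover X F hF h hS ih =>
    intro Z _ f hf
    refine SmallInd.cover Z (fun k => f ⁻¹' (F k)) (cover_preimage hf.isInducing hF)
      (fun Y V hY hV hVY => ?_) fun k => ?_
    · obtain ⟨V', hV', rfl⟩ := hf.isInducing.isOpen_iff.1 hV
      obtain ⟨y, hyV, hyY⟩ := hVY
      obtain ⟨k, _, ⟨hz1, z, hz, rfl⟩, hz2⟩ := h (f '' Y) V' (hf.isClosedMap Y hY) hV'
        ⟨f y, hyV, y, hyY, rfl⟩
      exact ⟨k, z, ⟨hz1, hz⟩, hz2⟩
    · exact ih k _ (fun x : f ⁻¹' (F k) => (⟨f x.1, x.2⟩ : F k)) (hf.restrictPreimage (F k))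
  | chain X h =>
    intro Z _ f hf
    exact SmallInd.chain Z (chain_preimage hf.isInducing h)
  | field X Y hYl hY2 hC g hg hS ih =>
    intro Z _ f hf
    exact SmallInd.field Z Y hYl hY2 hC (g ∘ f) (hg.comp hf.continuous) fun y =>
      ih y _ (fun x : f ⁻¹' (g ⁻¹' {y}) => (⟨f x.1, x.2⟩ : g ⁻¹' {y}))
        (hf.restrictPreimage (g ⁻¹' {y}))

/-- open subspaces -/
theorem smallInd_openEmbedding {X : Type u} [TopologicalSpace X] (hX : SmallInd X) :
    ∀ (Z : Type u) [TopologicalSpace Z] (f : Z → X), Topology.IsOpenEmbedding f →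
      SmallInd Z := by
  induction hX with
  | intro X K L h hL ih =>
    intro Z _ f hf
    refine SmallInd.intro Z K (fun k => f ⁻¹' (L k)) (fun Y V hY hV hVY => ?_) fun k => ?_
    · have hcl : ∀ S : Set X, f ⁻¹' (closure S) = closure (f ⁻¹' S) := fun S =>
        hf.isOpenMap.preimage_closure_eq_closure_preimage hf.continuous S
      have hYc : f ⁻¹' (closure (f '' Y)) = Y := by
        rw [hcl, Set.preimage_image_eq _ hf.injective, hY.closure_eq]
      obtain ⟨y, hyV, hyY⟩ := hVY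
      obtain ⟨U, hU, ⟨w, hwU, hwY⟩, hUV, hk⟩ := h (closure (f '' Y)) (f '' V) isClosed_closure
        (hf.isOpenMap V hV) ⟨f y, ⟨y, hyV, rfl⟩, subset_closure ⟨y, hyY, rfl⟩⟩
      have h0 : f ⁻¹' (U ∩ closure (f '' Y)) = f ⁻¹' U ∩ Y := by
        rw [Set.preimage_inter, hYc]
      have h1 : f '' (f ⁻¹' U ∩ Y) = U ∩ closure (f '' Y) := by
        rw [← h0, Set.image_preimage_eq_inter_range]
        refine Set.inter_eq_left.2 fun t ht => ?_
        obtain ⟨v, -, rfl⟩ := hUV ht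
        exact ⟨v, rfl⟩
      refine ⟨f ⁻¹' U, hU.preimage hf.continuous, ?_, ?_, ?_⟩
      · have h2 : w ∈ f '' (f ⁻¹' U ∩ Y) := by rw [h1]; exact ⟨hwU, hwY⟩
        obtain ⟨z, hz, -⟩ := h2
        exact ⟨z, hz⟩
      · intro t ht
        have h2 : f t ∈ f '' V := hUV (by rw [← h1]; exact ⟨t, ht, rfl⟩)
        obtain ⟨v, hv, hvt⟩ := h2
        rw [hf.injective hvt] at hv
        exact hv
      · rcases hk with hk | ⟨k, hk | hk⟩
        · left
          rw [hf.isInducing.isCompact_iff, h1]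
          exact hk
        · exact Or.inr ⟨k, Or.inl (by rw [← hk, h0])⟩
        right
        refine ⟨k, Or.inr ?_⟩
        rw [← hk, ← h0, ← hcl]
        rfl
    · exact ih k _ (fun x : f ⁻¹' (L k) => (⟨f x.1, x.2⟩ : L k)) (hf.restrictPreimage (L k))
  | cover X F hF h hS ih =>
    intro Z _ f hf
    refine SmallInd.cover Z (fun k => f ⁻¹' (F k)) (cover_preimage hf.isInducing hF)
      (fun Y V hY hV hVY => ?_) fun k => ?_
    · have hYc : f ⁻¹' (closure (f '' Y)) = Y := by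
        rw [hf.isOpenMap.preimage_closure_eq_closure_preimage hf.continuous,
          Set.preimage_image_eq _ hf.injective, hY.closure_eq]
      obtain ⟨y, hyV, hyY⟩ := hVY
      obtain ⟨k, _, ⟨⟨z, hz, rfl⟩, hz1⟩, hz2⟩ := h (closure (f '' Y)) (f '' V) isClosed_closure
        (hf.isOpenMap V hV) ⟨f y, ⟨y, hyV, rfl⟩, subset_closure ⟨y, hyY, rfl⟩⟩
      refine ⟨k, z, ⟨hz, ?_⟩, hz2⟩
      rw [← hYc]
      exact hz1
    · exact ih k _ (fun x : f ⁻¹' (F k) => (⟨f x.1, x.2⟩ : F k)) (hf.restrictPreimage (F k))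
  | chain X h =>
    intro Z _ f hf
    exact SmallInd.chain Z (chain_preimage hf.isInducing h)
  | field X Y hYl hY2 hC g hg hS ih =>
    intro Z _ f hf
    exact SmallInd.field Z Y hYl hY2 hC (g ∘ f) (hg.comp hf.continuous) fun y =>
      ih y _ (fun x : f ⁻¹' (g ⁻¹' {y}) => (⟨f x.1, x.2⟩ : g ⁻¹' {y}))
        (hf.restrictPreimage (g ⁻¹' {y}))

/-- closed subsets of subsets -/
theorem smallInd_subset {X : Type u} [TopologicalSpace X] {S T : Set X} (hT : SmallInd T)
    (hS : IsClosed S) (hST : S ⊆ T) : SmallInd S := by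
  refine smallInd_embedding hT S (Set.inclusion hST) ⟨Topology.IsEmbedding.inclusion hST, ?_⟩
  have h1 : Set.range (Set.inclusion hST) = Subtype.val ⁻¹' S := by
    rw [Set.range_inclusion]; rfl
  rw [h1]
  exact hS.preimage continuous_subtype_val

/-- spaces of small transfinite inductive dimension -/
theorem smallInd_of_tInd {X : Type u} [TopologicalSpace X] (hX : TInd X) : SmallInd X := by
  induction hX with
  | intro X K L h hL ih =>
    refine smallInd_of fun Y V hY hV hVY => ?_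
    obtain ⟨x, hxV, hxY⟩ := hVY
    obtain ⟨k, U, hU, hxU, hUV, hk⟩ := h x V hV hxV
    refine ⟨U, hU, ⟨x, hxU, hxY⟩, fun y hy => hUV hy.1, Or.inr (Or.inr ?_)⟩
    refine smallInd_subset (ih k) (isClosed_closure.sdiff hU) ?_
    rw [← hk, hU.frontier_eq]
    exact Set.sdiff_subset_sdiff_left (closure_mono Set.inter_subset_left)

/-- spaces with a base of compact open sets -/
theorem smallInd_of_compactBase {X : Type u} [TopologicalSpace X]
    (h : ∀ (x : X) (V : Set X), IsOpen V → x ∈ V →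
      ∃ U : Set X, IsOpen U ∧ IsCompact U ∧ x ∈ U ∧ U ⊆ V) : SmallInd X := by
  refine smallInd_of fun Y V hY hV hVY => ?_
  obtain ⟨x, hxV, hxY⟩ := hVY
  obtain ⟨U, hU, hUc, hxU, hUV⟩ := h x V hV hxV
  exact ⟨U, hU, ⟨x, hxU, hxY⟩, fun y hy => hUV hy.1, Or.inl (hUc.inter_right hY)⟩

/-- locally compact Hausdorff spaces whose compact subsets have property C -/
theorem smallInd_of_propC {X : Type u} [TopologicalSpace X] [LocallyCompactSpace X] [T2Space X]
    (hC : ∀ K : Set X, IsCompact K → Vale.Agent.P133.R2.H778.PropertyC K) : SmallInd X := by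
  refine SmallInd.field X X inferInstance inferInstance hC id continuous_id fun y => ?_
  have : Subsingleton (id ⁻¹' {y} : Set X) := ⟨fun a b => Subtype.ext (a.2.trans b.2.symm)⟩
  refine smallInd_of_compactBase fun x V hV hx => ⟨V, hV, ?_, hx, Set.Subset.rfl⟩
  exact (Set.subsingleton_of_subsingleton).isCompact

/-- Noetherian spaces -/
theorem smallInd_of_noetherian {X : Type u} [TopologicalSpace X] [NoetherianSpace X] :
    SmallInd X :=
  smallInd_of_compactBase fun _ V hV hx => ⟨V, hV, NoetherianSpace.isCompact V, hx, Set.Subset.rfl⟩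

/-- scattered spaces -/
theorem smallInd_of_scattered {X : Type u} [TopologicalSpace X]
    (h : ∀ Y : Set X, IsClosed Y → Y.Nonempty → ∃ U : Set X, IsOpen U ∧ ∃ x, U ∩ Y = {x}) :
    SmallInd X := by
  refine smallInd_of fun Y V hY hV hVY => ?_
  obtain ⟨U, hU, x, hx⟩ := h (closure (V ∩ Y)) isClosed_closure hVY.closure
  have hxU : x ∈ U ∩ closure (V ∩ Y) := by rw [hx]; rfl
  obtain ⟨y, hyU, hyV, hyY⟩ := mem_closure_iff.1 hxU.2 U hU hxU.1
  have h1 : U ∩ V ∩ Y = {y} := by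
    refine Set.eq_singleton_iff_unique_mem.2 ⟨⟨⟨hyU, hyV⟩, hyY⟩, ?_⟩
    rintro z ⟨⟨hzU, hzV⟩, hzY⟩
    have h2 : z ∈ U ∩ closure (V ∩ Y) := ⟨hzU, subset_closure ⟨hzV, hzY⟩⟩
    have h3 : y ∈ U ∩ closure (V ∩ Y) := ⟨hyU, subset_closure ⟨hyV, hyY⟩⟩
    rw [hx] at h2 h3
    rw [Set.mem_singleton_iff.1 h2, Set.mem_singleton_iff.1 h3]
  refine ⟨U ∩ V, hU.inter hV, ⟨y, ⟨hyU, hyV⟩, hyY⟩, fun t ht => ht.1.2, Or.inl ?_⟩
  rw [h1]
  exact isCompact_singleton

/-- open subsets of subsets -/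
theorem smallInd_open {X : Type u} [TopologicalSpace X] {U T : Set X} (hT : SmallInd T)
    (hU : IsOpen U) : SmallInd (U ∩ T : Set X) := by
  refine smallInd_openEmbedding hT (U ∩ T : Set X) (Set.inclusion Set.inter_subset_right)
    ⟨Topology.IsEmbedding.inclusion Set.inter_subset_right, ?_⟩
  have h1 : Set.range (Set.inclusion (Set.inter_subset_right : U ∩ T ⊆ T)) =
      Subtype.val ⁻¹' U := by
    rw [Set.range_inclusion]
    ext x
    exact ⟨fun h => h.1, fun h => ⟨h, x.2⟩⟩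
  rw [h1]
  exact hU.preimage continuous_subtype_val

/-- the class is local: `X` is in the class if every nonempty closed subset has a nonempty
relatively open subset in the class -/
theorem smallInd_of_local {X : Type u} [TopologicalSpace X]
    (h : ∀ Y : Set X, IsClosed Y → Y.Nonempty →
      ∃ U : Set X, IsOpen U ∧ (U ∩ Y).Nonempty ∧ SmallInd (U ∩ Y : Set X)) : SmallInd X := by
  refine smallInd_of fun Y V hY hV hVY => ?_
  obtain ⟨U, hU, ⟨x, hxU, hx⟩, hS⟩ := h (closure (V ∩ Y)) isClosed_closure hVY.closure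
  obtain ⟨y, hyU, hyV, hyY⟩ := mem_closure_iff.1 hx U hU hxU
  refine ⟨U ∩ V, hU.inter hV, ⟨y, ⟨hyU, hyV⟩, hyY⟩, fun t ht => ht.1.2, Or.inr (Or.inl ?_)⟩
  have h1 : U ∩ V ∩ Y = V ∩ (U ∩ closure (V ∩ Y)) := by
    ext t
    constructor
    · rintro ⟨⟨h1, h2⟩, h3⟩
      exact ⟨h2, h1, subset_closure ⟨h2, h3⟩⟩
    · rintro ⟨h1, h2, h3⟩
      exact ⟨⟨h2, h1⟩, closure_minimal Set.inter_subset_right hY h3⟩
  rw [h1]
  exact smallInd_open hS hV

/-- extensions -/
theorem smallInd_of_ext {X : Type u} [TopologicalSpace X] {F : Set X} (hF : IsClosed F)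
    (h1 : SmallInd F) (h2 : SmallInd (Fᶜ : Set X)) : SmallInd X := by
  refine smallInd_of_local fun Y hY hYn => ?_
  by_cases h : Y ⊆ F
  · refine ⟨Set.univ, isOpen_univ, by rwa [Set.univ_inter], ?_⟩
    rw [Set.univ_inter]
    exact smallInd_subset h1 hY h
  · obtain ⟨y, hyY, hyF⟩ := Set.not_subset.1 h
    refine ⟨Fᶜ, hF.isOpen_compl, ⟨y, hyF, hyY⟩, ?_⟩
    refine smallInd_embedding h2 _ (Set.inclusion Set.inter_subset_left)
      ⟨Topology.IsEmbedding.inclusion Set.inter_subset_left, ?_⟩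
    rw [Set.range_inclusion]
    have h3 : {x : (Fᶜ : Set X) | x.1 ∈ Fᶜ ∩ Y} = Subtype.val ⁻¹' Y := by
      ext x
      exact ⟨fun h => h.2, fun h => ⟨x.2, h⟩⟩
    rw [h3]
    exact hY.preimage continuous_subtype_val

/-- countable unions of closed subspaces of the class -/
theorem smallInd_of_iUnion {X : Type u} [TopologicalSpace X] {F : ℕ → Set X}
    (hF : ∀ k, IsClosed (F k)) (h : ⋃ k, F k = Set.univ) (hS : ∀ k, SmallInd (F k)) :
    SmallInd X := by
  refine SmallInd.cover X F (Or.inl hF) (fun Y V hY hV hVY => ?_) hS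
  obtain ⟨y, hy⟩ := hVY
  obtain ⟨k, hk⟩ := Set.mem_iUnion.1 (show y ∈ ⋃ k, F k by rw [h]; exact Set.mem_univ y)
  exact ⟨k, y, hy, hk⟩

/-- second countable spaces that are countable unions of locally closed subspaces of the class -/
theorem smallInd_of_iUnion' {X : Type u} [TopologicalSpace X] (hX : SecondCountableTopology X)
    {F : ℕ → Set X} (hF : ∀ k, IsLocallyClosed (F k)) (h : ⋃ k, F k = Set.univ)
    (hS : ∀ k, SmallInd (F k)) : SmallInd X := by
  refine SmallInd.cover X F (Or.inr ⟨hX, hF⟩) (fun Y V hY hV hVY => ?_) hS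
  obtain ⟨y, hy⟩ := hVY
  obtain ⟨k, hk⟩ := Set.mem_iUnion.1 (show y ∈ ⋃ k, F k by rw [h]; exact Set.mem_univ y)
  exact ⟨k, y, hy, hk⟩

end examples

end Vale.Agent.P133.H330
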