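import Vale.Agent.P133.H330.PrimeSp
import Vale.Agent.P133.H330.Top
import Vale.Agent.P133.H512.Countable

/-!
P133 (helper330, helper512): C*-algebras with countably many closed prime ideals.
-/

open scoped ComplexOrder

namespace Vale.Agent.P133.H330

open Vale.Agent.P133 Vale.Agent.P133F Vale.Agent.P133.Statement Vale.Agent.P133.H832
  Vale.Agent.P133.H681 Vale.Agent.P133.R2 Vale.Agent.P133.H779 TopologicalSpace

universe u

variable {A : Type u} [NonUnitalCStarAlgebra A] [PartialOrder A] [StarOrderedRing A]

/-- countable spaces of closed ideals -/
theorem smallInd_of_countable_openSets {X : Type u} [TopologicalSpace X] [T0Space X] [QuasiSober X]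
    [Countable X] (hX : OpenSets X A) : SmallInd X :=
  Vale.Agent.P133.H512.smallInd_of_countable fun x U hU hx => core_compact hX x U hU hx

/-- the class `SmallInd` in terms of the closed prime ideals -/
theorem coincide_of_primeSp (h : SmallInd (PrimeSp A)) : Coincide A :=
  coincide_of_smallInd h openSets_primeSp

/-- **Countably many closed prime ideals.** -/
theorem coincide_of_countable_primes (h : Countable {P : Submodule ℂ A // IsPrimeC P}) :
    Coincide A := by
  have : Countable (PrimeSp A) := h
  exact coincide_of_primeSp (smallInd_of_countable_openSets (A := A) openSets_primeSp)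

end Vale.Agent.P133.H330
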