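import Vale.Agent.P133.H330.WayBelow
import Vale.Agent.P133.H779.PrimeDef
import Vale.Agent.P133.H779.Sigma
import Mathlib.Topology.Sober

/-!
P133 (helper330): the space of closed prime ideals.
-/

open scoped ComplexOrder

namespace Vale.Agent.P133.H330

open Vale.Agent.P133 Vale.Agent.P133F Vale.Agent.P133.Statement Vale.Agent.P133.H832
  Vale.Agent.P133.H681 Vale.Agent.P133.R2 Vale.Agent.P133.H779 TopologicalSpace

universe u

section

variable {A : Type u} [NonUnitalCStarAlgebra A]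

/-- products of elements of two ideals -/
theorem mul_mem_of_inId {P : Submodule ℂ A} (hP : IsClosedIdeal P) {u v : A}
    (huv : ∀ w, u * w * v ∈ P) {p q : A} (hp : InId u p) (hq : InId v q) : p * q ∈ P := by
  refine hP.lim fun ε hε => ?_
  have h3 : ∀ w, u * w * q ∈ P := by
    intro w
    refine hP.lim fun ε hε => ?_
    obtain ⟨M, r, s, hrs⟩ := hq (ε / (‖u * w‖ + 1)) (by positivity)
    refine ⟨u * w * ∑ j, r j * v * s j, ?_, ?_⟩
    · rw [Finset.mul_sum]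
      refine P.sum_mem fun j _ => ?_
      have e : u * w * (r j * v * s j) = (u * (w * r j) * v) * s j := by
        simp only [mul_assoc]
      rw [e]
      exact (hP.2 _ _ (huv _)).2
    · rw [← mul_sub]
      calc _ ≤ ‖u * w‖ * ‖∑ j, r j * v * s j - q‖ := norm_mul_le _ _
        _ ≤ ‖u * w‖ * (ε / (‖u * w‖ + 1)) := by gcongr
        _ = ‖u * w‖ / (‖u * w‖ + 1) * ε := by ring
        _ < ε := by
            have h4 : ‖u * w‖ / (‖u * w‖ + 1) < 1 := by
              rw [div_lt_one (by positivity)]; linarith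
            nlinarith
  obtain ⟨M, r, s, hrs⟩ := hp (ε / (‖q‖ + 1)) (by positivity)
  refine ⟨(∑ j, r j * u * s j) * q, ?_, ?_⟩
  · rw [Finset.sum_mul]
    refine P.sum_mem fun j _ => ?_
    have e : r j * u * s j * q = r j * (u * s j * q) := by simp only [mul_assoc]
    rw [e]
    exact (hP.2 _ _ (h3 (s j))).1
  · rw [← sub_mul]
    calc _ ≤ ‖∑ j, r j * u * s j - p‖ * ‖q‖ := norm_mul_le _ _
      _ ≤ ε / (‖q‖ + 1) * ‖q‖ := by gcongr
      _ = ‖q‖ / (‖q‖ + 1) * ε := by ring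
      _ < ε := by
          have h4 : ‖q‖ / (‖q‖ + 1) < 1 := by
            rw [div_lt_one (by positivity)]; linarith
          nlinarith

/-- prime ideals and intersections of ideals -/
theorem IsPrimeC.le_or_le {P : Submodule ℂ A} (hP : IsPrimeC P) {I J : Submodule ℂ A}
    (hI : IsClosedIdeal I) (hJ : IsClosedIdeal J) (h : I ⊓ J ≤ P) : I ≤ P ∨ J ≤ P := by
  by_contra hno
  push Not at hno
  obtain ⟨x, hx, hxP⟩ := Set.not_subset.1 (show ¬ (I : Set A) ⊆ (P : Set A) from hno.1)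
  obtain ⟨y, hy, hyP⟩ := Set.not_subset.1 (show ¬ (J : Set A) ⊆ (P : Set A) from hno.2)
  rcases hP.2.2 x y fun w => h ⟨(hI.2 _ _ (hI.2 w _ hx).2).2, (hJ.2 _ _ hy).1⟩ with h1 | h1
  · exact hxP h1
  · exact hyP h1

theorem isClosedIdeal_sInf {S : Set (Submodule ℂ A)} (hS : ∀ I ∈ S, IsClosedIdeal I) :
    IsClosedIdeal (sInf S) := by
  refine ⟨?_, fun a x hx => ?_⟩
  · have h2 : ((sInf S : Submodule ℂ A) : Set A) = ⋂ I ∈ S, (I : Set A) := by
      ext z; simp
    rw [h2]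
    exact isClosed_biInter fun I hI => (hS I hI).1
  · rw [Submodule.mem_sInf] at hx ⊢
    rw [Submodule.mem_sInf]
    exact ⟨fun I hI => ((hS I hI).2 a x (hx I hI)).1, fun I hI => ((hS I hI).2 a x (hx I hI)).2⟩

variable [PartialOrder A] [StarOrderedRing A]

/-- maximal ideals with a property that excludes `P` are prime -/
theorem isPrimeC_of {P : Submodule ℂ A} (hP : IsClosedIdeal P) (hne : P ≠ ⊤)
    (h : ∀ I J : Submodule ℂ A, IsClosedIdeal I → IsClosedIdeal J → P ≤ I → P ≤ J → ¬ I ≤ P →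
      ¬ J ≤ P → ∃ z, z ∈ I ∧ z ∈ J ∧ z ∉ P) : IsPrimeC P := by
  refine ⟨hP, hne, fun u v huv => ?_⟩
  by_contra hcon
  push Not at hcon
  obtain ⟨I, hI, hI'⟩ := isClosedIdeal_inId u
  obtain ⟨J, hJ, hJ'⟩ := isClosedIdeal_inId v
  have hle : ∀ K : Submodule ℂ A, K ≤ (P ⊔ K).topologicalClosure := fun K =>
    le_sup_right.trans (Submodule.le_topologicalClosure _)
  have hle' : ∀ K : Submodule ℂ A, P ≤ (P ⊔ K).topologicalClosure := fun K =>
    le_sup_left.trans (Submodule.le_topologicalClosure _)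
  obtain ⟨z, hzI, hzJ, hzP⟩ := h _ _ (Vale.Agent.P133.H779.isClosedIdeal_sup hP hI)
    (Vale.Agent.P133.H779.isClosedIdeal_sup hP hJ) (hle' I) (hle' J)
    (fun h1 => hcon.1 (h1 (hle I ((hI' u).2 (InId.refl u)))))
    (fun h1 => hcon.2 (h1 (hle J ((hJ' v).2 (InId.refl v)))))
  have h1 : star z * z ∈ P := Vale.Agent.P133.H779.mul_mem_of_sup hP
    (fun p hp q hq => mul_mem_of_inId hP huv ((hI' p).1 hp) ((hJ' q).1 hq))
    ((Vale.Agent.P133.H779.isClosedIdeal_sup hP hI).star_mem hzI) hzJ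
  exact hzP (hP.of_star_mul_self h1)

/-- every closed ideal is the intersection of the closed prime ideals that contain it -/
theorem exists_prime {I : Submodule ℂ A} (hI : IsClosedIdeal I) {x : A} (hx : x ∉ I) :
    ∃ P : Submodule ℂ A, IsPrimeC P ∧ I ≤ P ∧ x ∉ P := by
  have hb : 0 ≤ star x * x := star_mul_self_nonneg x
  set b := star x * x with hbd
  have hbI : b ∉ I := fun h => hx (hI.of_star_mul_self h)
  obtain ⟨δ, hδ, hδI⟩ : ∃ δ : ℝ, 0 < δ ∧ R2.H28.cut b δ ∉ I := by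
    by_contra hno
    push Not at hno
    refine hbI (hI.lim fun ε hε => ⟨R2.H28.cut b (ε / 2), hno _ (half_pos hε), ?_⟩)
    exact (R2.H28.norm_cut_sub_le hb (half_pos hε)).trans_lt (half_lt_self hε)
  -- a maximal ideal
  obtain ⟨P, hIP, hPm⟩ := zorn_le_nonempty₀
    {P : Submodule ℂ A | IsClosedIdeal P ∧ ∀ s : ℝ, 0 < s → s < δ → R2.H28.cut b s ∉ P} (by
      intro c hc hch y hy
      have h1 : ∀ x, x ∈ sSup c ↔ ∃ P ∈ c, x ∈ P := fun x =>
        Submodule.mem_sSup_of_directed ⟨y, hy⟩ hch.directedOn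
      have hcl : IsClosedIdeal (sSup c).topologicalClosure := isClosedIdeal_closure fun b x hx => by
        obtain ⟨P, hP, hx⟩ := (h1 x).1 hx
        exact ⟨(h1 _).2 ⟨P, hP, ((hc hP).1.2 b x hx).1⟩,
          (h1 _).2 ⟨P, hP, ((hc hP).1.2 b x hx).2⟩⟩
      refine ⟨(sSup c).topologicalClosure, ⟨hcl, fun s hs0 hs hk => ?_⟩,
        fun z hz => (le_sSup hz).trans (Submodule.le_topologicalClosure _)⟩
      have hd : 0 < (δ - s) / 2 := by linarith
      obtain ⟨w, hw, h3⟩ := Metric.mem_closure_iff.1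
        (show R2.H28.cut b s ∈ closure ((sSup c : Submodule ℂ A) : Set A) from hk) _ hd
      obtain ⟨P, hPc, hwP⟩ := (h1 w).1 hw
      rw [dist_eq_norm] at h3
      refine (hc hPc).2 (s + (δ - s) / 2) (by linarith) (by linarith)
        ((hc hPc).1.cut_mem hb hwP ?_)
      have h4 := R2.H28.norm_cut_sub_le hb hs0
      calc ‖b - w‖ = ‖(R2.H28.cut b s - w) - (R2.H28.cut b s - b)‖ := by congr 1; abel
        _ ≤ ‖R2.H28.cut b s - w‖ + ‖R2.H28.cut b s - b‖ := norm_sub_le _ _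
        _ < (δ - s) / 2 + s := add_lt_add_of_lt_of_le h3 h4
        _ = s + (δ - s) / 2 := by ring) I ⟨hI, fun s hs0 hs h => hδI (by
          refine hI.cut_mem hb h ?_
          rw [← norm_neg, neg_sub]
          exact (R2.H28.norm_cut_sub_le hb hs0).trans_lt hs)⟩
  obtain ⟨hPc, hPb⟩ := hPm.prop
  have hbP : b ∉ P := by
    intro h
    refine hPb (δ / 2) (half_pos hδ) (half_lt_self hδ) (hPc.cut_mem hb h ?_)
    rw [sub_self, norm_zero]
    exact half_pos hδ
  refine ⟨P, isPrimeC_of hPc (fun h => hbP (by rw [h]; exact Submodule.mem_top)) ?_, hIP,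
    fun h => hbP (hPc.2 _ _ h).1⟩
  intro K L hK hL hPK hPL hKP hLP
  have key : ∀ K : Submodule ℂ A, IsClosedIdeal K → P ≤ K → ¬ K ≤ P →
      ∃ s : ℝ, 0 < s ∧ s < δ ∧ R2.H28.cut b s ∈ K := by
    intro K hK hPK hKP
    by_contra hno
    push Not at hno
    exact hKP (hPm.le_of_ge ⟨hK, hno⟩ hPK)
  obtain ⟨s, hs0, hs, hsK⟩ := key K hK hPK hKP
  obtain ⟨t, ht0, ht, htL⟩ := key L hL hPL hLP
  have hmono : ∀ (K : Submodule ℂ A), IsClosedIdeal K → ∀ s r : ℝ, 0 < s → s < r →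
      R2.H28.cut b s ∈ K → R2.H28.cut b r ∈ K := by
    intro K hK s r hs0 hsr h
    refine hK.cut_mem hb h ?_
    rw [← norm_neg, neg_sub]
    exact (R2.H28.norm_cut_sub_le hb hs0).trans_lt hsr
  have hm : max s t < δ := max_lt hs ht
  have h0 : 0 < max s t := hs0.trans_le (le_max_left _ _)
  refine ⟨R2.H28.cut b ((max s t + δ) / 2), hmono K hK s _ hs0 ?_ hsK,
    hmono L hL t _ ht0 ?_ htL, hPb _ (by linarith) (by linarith)⟩
  · have := le_max_left s t; linarith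
  · have := le_max_right s t; linarith

end

/-- the closed prime ideals -/
def PrimeSp (A : Type u) [NonUnitalCStarAlgebra A] : Type u := {P : Submodule ℂ A // IsPrimeC P}

section

variable {A : Type u} [NonUnitalCStarAlgebra A]

/-- the open set of a closed ideal -/
def op (I : Submodule ℂ A) : Set (PrimeSp A) := {P | ¬ I ≤ P.1}

theorem mem_op {I : Submodule ℂ A} {P : PrimeSp A} : P ∈ op I ↔ ¬ I ≤ P.1 := Iff.rfl

theorem op_inf {I J : Submodule ℂ A} (hI : IsClosedIdeal I) (hJ : IsClosedIdeal J) :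
    op (I ⊓ J) = op I ∩ op J := by
  ext P
  constructor
  · exact fun h => ⟨fun h1 => h (inf_le_left.trans h1), fun h1 => h (inf_le_right.trans h1)⟩
  · rintro ⟨h1, h2⟩ h3
    rcases IsPrimeC.le_or_le P.2 hI hJ h3 with h | h
    · exact h1 h
    · exact h2 h

theorem op_mono {I J : Submodule ℂ A} (h : I ≤ J) : op I ⊆ op J := fun _ h1 h2 => h1 (h.trans h2)

/-- the hull-kernel topology -/
instance : TopologicalSpace (PrimeSp A) where
  IsOpen U := ∃ I, IsClosedIdeal I ∧ U = op I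
  isOpen_univ := ⟨⊤, ⟨isClosed_univ, fun _ _ _ => ⟨trivial, trivial⟩⟩, by
    ext P
    exact ⟨fun _ h => P.2.2.1 (top_le_iff.1 h), fun _ => trivial⟩⟩
  isOpen_inter := by
    rintro _ _ ⟨I, hI, rfl⟩ ⟨J, hJ, rfl⟩
    exact ⟨I ⊓ J, isClosedIdeal_inf hI hJ, (op_inf hI hJ).symm⟩
  isOpen_sUnion := by
    intro S hS
    refine ⟨sInf {J | IsClosedIdeal J ∧ ∀ K, op K ∈ S → IsClosedIdeal K → K ≤ J},
      isClosedIdeal_sInf fun J hJ => hJ.1, ?_⟩
    ext P
    constructor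
    · rintro ⟨U, hU, hP⟩ h
      obtain ⟨I, hI, rfl⟩ := hS U hU
      exact hP ((le_sInf fun J hJ => hJ.2 I hU hI).trans h)
    · intro h
      by_contra hno
      refine h (sInf_le ⟨P.2.1, fun K hK _ => ?_⟩)
      by_contra h1
      exact hno ⟨_, hK, h1⟩

theorem isOpen_iff {U : Set (PrimeSp A)} : IsOpen U ↔ ∃ I, IsClosedIdeal I ∧ U = op I := Iff.rfl

theorem isOpen_op {I : Submodule ℂ A} (hI : IsClosedIdeal I) : IsOpen (op I : Set (PrimeSp A)) :=
  ⟨I, hI, rfl⟩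

/-- the closed ideal of an open set -/
def ker (O : Opens (PrimeSp A)) : Submodule ℂ A := sInf {P | ∃ Q : PrimeSp A, Q ∉ O ∧ Q.1 = P}

theorem isClosedIdeal_ker (O : Opens (PrimeSp A)) : IsClosedIdeal (ker O) := by
  refine isClosedIdeal_sInf ?_
  rintro _ ⟨Q, -, rfl⟩
  exact Q.2.1

theorem mem_ker {O : Opens (PrimeSp A)} {x : A} : x ∈ ker O ↔ ∀ Q : PrimeSp A, Q ∉ O → x ∈ Q.1 := by
  rw [ker, Submodule.mem_sInf]
  constructor
  · exact fun h Q hQ => h _ ⟨Q, hQ, rfl⟩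
  · rintro h _ ⟨Q, hQ, rfl⟩
    exact h Q hQ

instance : T0Space (PrimeSp A) := by
  refine ⟨fun P Q h => ?_⟩
  have key : ∀ P Q : PrimeSp A, Inseparable P Q → P.1 ≤ Q.1 := by
    intro P Q h
    by_contra h1
    exact ((inseparable_iff_forall_isOpen.1 h) _ (isOpen_op P.2.1)).2 h1 le_rfl
  exact Subtype.ext (le_antisymm (key P Q h) (key Q P h.symm))

variable [PartialOrder A] [StarOrderedRing A]

theorem op_subset_iff {I J : Submodule ℂ A} (hJ : IsClosedIdeal J) : op I ⊆ op J ↔ I ≤ J := by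
  refine ⟨fun h x hx => ?_, op_mono⟩
  by_contra hno
  obtain ⟨P, hP, hJP, hxP⟩ := exists_prime hJ hno
  exact h (show (⟨P, hP⟩ : PrimeSp A) ∈ op I from fun h1 => hxP (h1 hx)) hJP

theorem ker_op {I : Submodule ℂ A} (hI : IsClosedIdeal I) : ker ⟨op I, isOpen_op hI⟩ = I := by
  refine le_antisymm (fun x hx => ?_) fun x hx => mem_ker.2 fun Q hQ => not_not.1 hQ hx
  by_contra hno
  obtain ⟨P, hP, hIP, hxP⟩ := exists_prime hI hno
  exact hxP (mem_ker.1 hx ⟨P, hP⟩ (not_not.2 hIP))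

/-- the open sets of the space of closed primes correspond to the closed ideals -/
theorem openSets_primeSp : OpenSets (PrimeSp A) A := by
  refine ⟨ker, isClosedIdeal_ker, fun I hI => ⟨_, ker_op hI⟩, fun O O' => ?_⟩
  obtain ⟨I, hI, h1⟩ := isOpen_iff.1 O.2
  obtain ⟨J, hJ, h2⟩ := isOpen_iff.1 O'.2
  have h3 : O = ⟨op I, isOpen_op hI⟩ := Opens.ext h1
  have h4 : O' = ⟨op J, isOpen_op hJ⟩ := Opens.ext h2
  subst h3 h4
  rw [ker_op hI, ker_op hJ, ← op_subset_iff hJ]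
  exact Iff.rfl

instance : QuasiSober (PrimeSp A) := by
  refine ⟨fun {S} hS hSc => ?_⟩
  let O : Opens (PrimeSp A) := ⟨Sᶜ, hSc.isOpen_compl⟩
  have hO : ∀ Q : PrimeSp A, Q ∉ O ↔ Q ∈ S := fun Q => not_not
  have hk : ∀ x, x ∈ ker O ↔ ∀ Q ∈ S, x ∈ Q.1 := fun x => by
    rw [mem_ker]
    exact forall_congr' fun Q => by rw [hO]
  obtain ⟨Q₀, hQ₀⟩ := hS.1
  have hprime : IsPrimeC (ker O) := by
    refine ⟨isClosedIdeal_ker O, fun h => Q₀.2.2.1 (top_le_iff.1 fun x hx => ?_),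
      fun u v huv => ?_⟩
    · exact (hk x).1 (by rw [h]; exact hx) Q₀ hQ₀
    · by_contra hcon
      push Not at hcon
      rw [hk, hk] at hcon
      push Not at hcon
      obtain ⟨⟨P, hPS, hP⟩, Q, hQS, hQ⟩ := hcon
      obtain ⟨I, hI, hI'⟩ := isClosedIdeal_inId u
      obtain ⟨J, hJ, hJ'⟩ := isClosedIdeal_inId v
      have h1 : ∀ {R : PrimeSp A}, R ∈ op I ↔ u ∉ R.1 := fun {R} => by
        rw [mem_op, not_iff_not]
        exact ⟨fun h => h ((hI' u).2 (InId.refl u)), fun h x hx => R.2.1.inId h ((hI' x).1 hx)⟩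
      have h2 : ∀ {R : PrimeSp A}, R ∈ op J ↔ v ∉ R.1 := fun {R} => by
        rw [mem_op, not_iff_not]
        exact ⟨fun h => h ((hJ' v).2 (InId.refl v)), fun h x hx => R.2.1.inId h ((hJ' x).1 hx)⟩
      obtain ⟨R, hRS, hR1, hR2⟩ := hS.2 (op I) (op J) (isOpen_op hI) (isOpen_op hJ)
        ⟨P, hPS, h1.2 hP⟩ ⟨Q, hQS, h2.2 hQ⟩
      rcases R.2.2.2 u v fun w => (hk _).1 (huv w) R hRS with h3 | h3
      · exact h1.1 hR1 h3
      · exact h2.1 hR2 h3
  refine ⟨⟨ker O, hprime⟩, ?_⟩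
  have hmem : (⟨ker O, hprime⟩ : PrimeSp A) ∈ S := by
    by_contra hno
    obtain ⟨I, hI, h1⟩ := isOpen_iff.1 O.2
    have h2 : (⟨ker O, hprime⟩ : PrimeSp A) ∈ op I := by
      rw [← h1]; exact hno
    refine h2 fun x hx => (hk x).2 fun Q hQ => ?_
    have h3 : Q ∉ op I := by
      rw [← h1]; exact (hO Q).2 hQ
    exact not_not.1 h3 hx
  refine Set.Subset.antisymm (closure_minimal (Set.singleton_subset_iff.2 hmem) hSc) ?_
  intro Q hQ
  rw [mem_closure_iff]
  rintro _ ⟨I, hI, rfl⟩ hQI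
  exact ⟨_, fun h => hQI (h.trans fun x hx => (hk x).1 hx Q hQ), rfl⟩

/-- core-compactness -/
theorem core_compact_primeSp (x : PrimeSp A) (U : Set (PrimeSp A)) (hU : IsOpen U) (hx : x ∈ U) :
    ∃ V : Set (PrimeSp A), IsOpen V ∧ x ∈ V ∧ V ⊆ U ∧ ∀ F : Set (Set (PrimeSp A)), F.Nonempty →
      DirectedOn (· ⊆ ·) F → (∀ W ∈ F, IsOpen W) → U ⊆ ⋃₀ F → ∃ W ∈ F, V ⊆ W :=
  core_compact openSets_primeSp x U hU hx

end

end Vale.Agent.P133.H330
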