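import Vale.Agent.P133.H330.TopIdeal
import Vale.Agent.P133.H294.Pieces
import Mathlib.Topology.LocallyClosed

/-!
P133 (helper330): countable families of locally closed subspaces of second countable primitive
ideal spaces.
-/

open scoped ComplexOrder

namespace Vale.Agent.P133.H330

open Vale.Agent.P133 Vale.Agent.P133F Vale.Agent.P133.Statement Vale.Agent.P133.H832
  Vale.Agent.P133.H681 Vale.Agent.P133.R2 Vale.Agent.P133.R2.H474 TopologicalSpace

universe u

section

variable {X : Type u} [TopologicalSpace X] {O U : Opens X} {S : Set X}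
  (hS : ∀ x, x ∈ S ↔ x ∈ U ∧ x ∉ O)
  {A : Type u} [NonUnitalCStarAlgebra A]

include hS in
/-- locally closed subspaces correspond to quotients of ideals -/
theorem openSets_piece {e : Opens X → Submodule ℂ A} (he : ∀ O, IsClosedIdeal (e O))
    (hs : ∀ I, IsClosedIdeal I → ∃ O, e O = I) (hle : ∀ O O', e O ≤ e O' ↔ O ≤ O')
    {D : Type u} [NonUnitalCStarAlgebra D] {ι : D →⋆ₙₐ[ℂ] A} (hι : Function.Injective ι)
    (hr : ∀ x, (∃ d, ι d = x) ↔ x ∈ e U)
    {C : Type u} [NonUnitalCStarAlgebra C] {ρ : D →⋆ₙₐ[ℂ] C} (hρ : Function.Surjective ρ)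
    (hk : ∀ d, ρ d = 0 ↔ ι d ∈ e O) : OpenSets S C := by
  have hker : ∀ W : Opens S, ∀ d, ρ d = 0 → d ∈ pre ι (e (upL O U hS W)) := fun W d hd =>
    (hle _ _).2 (le_upL hS W) ((hk d).1 hd)
  -- the part of `upL` in `U`
  have hpre : ∀ O₁ O₂ : Opens X, O₁ ⊓ U ≤ O₂ → pre ι (e O₁) ≤ pre ι (e O₂) := by
    intro O₁ O₂ h d hd
    exact (hle _ _).2 h (e_inf he hs hle _ _ ⟨hd, (hr _).1 ⟨d, rfl⟩⟩)
  refine ⟨fun W => img ρ (pre ι (e (upL O U hS W))), fun W => isClosedIdeal_img hρ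
    (isClosedIdeal_pre ι (he _)) (hker W), fun J hJ => ?_, fun W W' => ?_⟩
  · have hJ' := isClosedIdeal_img_ideal (he U) hι hr (isClosedIdeal_pre ρ hJ)
    obtain ⟨O', hO'⟩ := hs _ hJ'
    have h2 : O' ≤ U := by
      rw [← hle, hO']
      rintro x ⟨d, -, hd⟩
      exact (hr _).1 ⟨d, hd⟩
    have h3 : pre ι (e O') = pre ρ J := by rw [hO', pre_img hι]
    have h4 : O ⊓ U ≤ O' := by
      rw [← hle]
      intro x hx
      obtain ⟨d, rfl⟩ := (hr x).2 ((hle _ _).2 inf_le_right hx)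
      have h5 : d ∈ pre ι (e O') := by
        rw [h3, mem_pre, (hk d).2 ((hle _ _).2 inf_le_left hx)]
        exact J.zero_mem
      exact h5
    obtain ⟨W, hW⟩ := exists_upL hS (le_sup_left : O ≤ O ⊔ O') (sup_le_sup_left h2 O)
    refine ⟨W, ?_⟩
    show img ρ (pre ι (e (upL O U hS W))) = J
    have h6 : pre ι (e (upL O U hS W)) = pre ρ J := by
      rw [hW, ← h3]
      refine le_antisymm (hpre _ _ ?_) (hpre _ _ (inf_le_left.trans le_sup_right))
      rw [inf_sup_right]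
      exact sup_le h4 inf_le_left
    rw [h6]
    ext c
    obtain ⟨d, rfl⟩ := hρ c
    rw [map_mem_img_iff (fun x hx => by rw [mem_pre, hx]; exact J.zero_mem), mem_pre]
  · show img ρ (pre ι (e (upL O U hS W))) ≤ img ρ (pre ι (e (upL O U hS W'))) ↔ W ≤ W'
    constructor
    · intro h
      rw [← upL_le_iff hS]
      have h1 : pre ι (e (upL O U hS W)) ≤ pre ι (e (upL O U hS W')) := fun d hd =>
        (map_mem_img_iff (hker W')).1 (h ((map_mem_img_iff (hker W)).2 hd))
      have h2 : upL O U hS W ⊓ U ≤ upL O U hS W' := by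
        rw [← hle]
        intro x hx
        obtain ⟨d, rfl⟩ := (hr x).2 ((hle _ _).2 inf_le_right hx)
        exact h1 ((hle _ _).2 inf_le_left hx)
      intro x hx
      by_cases hxO : x ∈ O
      · exact Or.inl hxO
      · refine h2 ⟨hx, ?_⟩
        rcases upL_le hS W hx with h3 | h3
        · exact absurd h3 hxO
        · exact h3
    · intro h
      have h1 : pre ι (e (upL O U hS W)) ≤ pre ι (e (upL O U hS W')) := fun d hd =>
        (hle _ _).2 ((upL_le_iff hS).2 h) hd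
      rintro _ ⟨d, hd, rfl⟩
      exact ⟨d, h1 hd, rfl⟩

/-- the open support of an element -/
theorem exists_supp [PartialOrder A] [StarOrderedRing A] {e : Opens X → Submodule ℂ A}
    (he : ∀ O, IsClosedIdeal (e O))
    (hs : ∀ I, IsClosedIdeal I → ∃ O, e O = I) (hle : ∀ O O', e O ≤ e O' ↔ O ≤ O') (a : A) :
    ∃ V : Opens X, ∀ O, a ∈ e O ↔ V ≤ O := by
  obtain ⟨I, hI, hI'⟩ := isClosedIdeal_inId a
  obtain ⟨V, rfl⟩ := hs I hI
  refine ⟨V, fun O => ?_⟩
  rw [← hle]
  constructor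
  · exact fun h x hx => (he O).inId h ((hI' x).1 hx)
  · exact fun h => h ((hI' a).2 (InId.refl a))

end

section

variable {X : Type u} [TopologicalSpace X] [SecondCountableTopology X]
  {A : Type u} [NonUnitalCStarAlgebra A] [PartialOrder A] [StarOrderedRing A]

/-- countably many elements of `her a` see all points of `supp a ∩ U` -/
theorem exists_seq {e : Opens X → Submodule ℂ A} (he : ∀ O, IsClosedIdeal (e O))
    (hs : ∀ I, IsClosedIdeal I → ∃ O, e O = I) (hle : ∀ O O', e O ≤ e O' ↔ O ≤ O') {a : A}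
    (ha : 0 ≤ a) {V : Opens X} (hV : ∀ O, a ∈ e O ↔ V ≤ O) (U : Opens X) :
    ∃ z : ℕ → A, (∀ l, 0 ≤ z l ∧ z l ∈ her a ∧ z l ∈ e U) ∧
      ∀ x ∈ V, x ∈ U → ∃ l, ∀ O, z l ∈ e O → x ∈ O := by
  choose supp hsupp using exists_supp he hs hle (A := A)
  let T : Set A := {z | 0 ≤ z ∧ z ∈ her a ∧ z ∈ e U}
  have h0 : (0 : A) ∈ T := ⟨le_rfl, (her a).zero_mem, (e U).zero_mem⟩
  obtain ⟨T', hT', hT''⟩ := TopologicalSpace.isOpen_iUnion_countable
    (fun z : T => (supp z.1 : Set X)) fun z => (supp z.1).2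
  have hT1 : (insert (⟨0, h0⟩ : T) T').Countable := hT'.insert _
  obtain ⟨z, hz⟩ := hT1.exists_eq_range ⟨_, Set.mem_insert _ _⟩
  refine ⟨fun l => (z l).1, fun l => (z l).2, fun x hxV hxU => ?_⟩
  -- the open set of all supports
  let W : Opens X := ⟨⋃ z : T, (supp z.1 : Set X), isOpen_iUnion fun z => (supp z.1).2⟩
  have hTW : ∀ z ∈ T, z ∈ e W := fun z hz =>
    (hsupp z W).2 (Set.subset_iUnion (fun z : T => (supp z.1 : Set X)) ⟨z, hz⟩)
  have hcol := Vale.Agent.P133.H779.isClosedIdeal_colon (he W) (he U)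
  have hsa : star a = a := (IsSelfAdjoint.of_nonneg ha).star_eq
  have hac : a ∈ Vale.Agent.P133.H779.colon (e W) (e U) := by
    intro y hy
    have h1 : star (star y * a) * (star y * a) ∈ e W := by
      have h2 : star (star y * a) * (star y * a) = a * (y * star y) * a := by
        rw [star_mul, star_star, hsa]
        simp only [mul_assoc]
      refine hTW _ ⟨star_mul_self_nonneg _, ?_, ?_⟩
      · rw [h2]; exact her_self a _
      · exact ((he U).2 _ _ ((he U).2 _ _ ((he U).star_mem hy)).2).1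
    have h2 := (he W).star_mem ((he W).of_star_mul_self h1)
    rwa [star_mul, star_star, hsa] at h2
  have hVW : x ∈ W := by
    have h1 : V ⊓ U ≤ W := by
      rw [← hle]
      intro y hy
      obtain ⟨W', hW'⟩ := hs _ hcol
      have h2 : V ≤ W' := (hV W').1 (by rw [hW']; exact hac)
      have h3 : y ∈ Vale.Agent.P133.H779.colon (e W) (e U) := by
        rw [← hW']
        exact (hle _ _).2 (inf_le_left.trans h2) hy
      have h4 := h3 (star y) ((he U).star_mem ((hle _ _).2 inf_le_right hy))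
      have h5 : star (star y) * star y ∈ e W := by rwa [star_star]
      have h6 := (he W).star_mem ((he W).of_star_mul_self h5)
      rwa [star_star] at h6
    exact h1 ⟨hxV, hxU⟩
  have hx : x ∈ ⋃ z ∈ T', (supp z.1 : Set X) := by rw [hT'']; exact hVW
  obtain ⟨w, hw⟩ := Set.mem_iUnion.1 hx
  obtain ⟨hwT, hxw⟩ := Set.mem_iUnion.1 hw
  have h1 : w ∈ Set.range z := by rw [← hz]; exact Set.mem_insert_of_mem _ hwT
  obtain ⟨l, rfl⟩ := h1
  exact ⟨l, fun O hO => (hsupp _ O).1 hO hxw⟩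

/-- the step with countably many locally closed subspaces -/
theorem eltPI_of_pieces_top {n : ℕ} (hn : WPI A n)
    (hX : OpenSets X A) {F : ℕ → Set X} (hF : ∀ k, IsLocallyClosed (F k))
    (h : ∀ Y V : Set X, IsClosed Y → IsOpen V → (V ∩ Y).Nonempty → ∃ k, (V ∩ Y ∩ F k).Nonempty)
    (hC : ∀ (k : ℕ) (C : Type u) [NonUnitalCStarAlgebra C] [PartialOrder C] [StarOrderedRing C],
      WPI C n → OpenSets (F k) C → EltPI C) : EltPI A := by
  obtain ⟨e, he, hs, hle⟩ := hX
  choose U Z hU hZ hUZ using hF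
  refine Vale.Agent.P133.H294.eltPI_of_pieces hn fun a ha δ hδ => ?_
  obtain ⟨V, hV⟩ := exists_supp he hs hle a
  choose z hz hzV using fun k => exists_seq he hs hle ha hV ⟨U k, hU k⟩
  have hsub : ∀ k, Vale.Agent.P133.H294.PiSub (e (co (hZ k))) (e ⟨U k, hU k⟩) := by
    intro k
    obtain ⟨D, i1, i2, i3, ι, hι, hr⟩ := exists_idAlg (he ⟨U k, hU k⟩)
    obtain ⟨C, j1, j2, j3, ρ, hρ, hρk⟩ := (isClosedIdeal_pre ι (he (co (hZ k)))).quot
    have hS : ∀ x, x ∈ F k ↔ x ∈ (⟨U k, hU k⟩ : Opens X) ∧ x ∉ co (hZ k) := by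
      intro x
      rw [hUZ k]
      exact and_congr Iff.rfl not_not.symm
    have hC' : OpenSets (F k) C := openSets_piece hS he hs hle hι hr hρ hρk
    have hD : WPI D n := Vale.Agent.P133.R2.H474.wpi_of_her ι hι (fun x y w =>
      (hr _).2 ((he _).2 _ _ ((hr _).1 ⟨y, rfl⟩)).1) hn
    exact ⟨D, C, i1, j1, j2, j3, ι, ρ, hι, fun x => (hr x).symm, hρ, hρk,
      pi_of_eltPI (hC k C (wpiE_of_surj hD ρ hρ) hC')⟩
  refine ⟨fun m => e (co (hZ (Nat.unpair m).1)), fun m => e ⟨U (Nat.unpair m).1, hU _⟩,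
    fun m => z (Nat.unpair m).1 (Nat.unpair m).2, fun m => he _, fun m => he _,
    fun m => (hz _ _).1, fun m => (hz _ _).2.1, fun m => (hz _ _).2.2, fun m => hsub _, ?_⟩
  intro P hP hcP
  obtain ⟨O, rfl⟩ := hs P hP
  have hVO : ¬ V ≤ O := by
    intro h1
    have h2 : a ∈ e O := (hV O).2 h1
    refine hcP ((he O).cut_mem ha h2 ?_)
    rw [sub_self, norm_zero]
    exact hδ
  obtain ⟨t, htV, htO⟩ := Set.not_subset.1 (show ¬ (V : Set X) ⊆ (O : Set X) from hVO)
  obtain ⟨k, s, ⟨hsV, hsO⟩, hsF⟩ := h (O : Set X)ᶜ V O.2.isClosed_compl V.2 ⟨t, htV, htO⟩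
  rw [hUZ k] at hsF
  obtain ⟨l, hl⟩ := hzV k s hsV hsF.1
  have key : ∀ k' l', k' = k → l' = l →
      z k' l' ∉ (e O ⊔ e (co (hZ k'))).topologicalClosure := by
    rintro k' l' rfl rfl hmem
    have h2 : (e O ⊔ e (co (hZ k'))).topologicalClosure ≤ e (O ⊔ co (hZ k')) :=
      Submodule.topologicalClosure_minimal _
        (sup_le ((hle _ _).2 le_sup_left) ((hle _ _).2 le_sup_right)) (he _).1
    rcases hl _ (h2 hmem) with h3 | h3
    · exact hsO h3
    · exact h3 hsF.2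
  exact ⟨Nat.pair k l, key _ _ (by rw [Nat.unpair_pair]) (by rw [Nat.unpair_pair])⟩

end

end Vale.Agent.P133.H330
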