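import Vale.Agent.P133.H330.Top

/-!
P133 (helper330): products of spaces in the class `SmallInd`.
-/

namespace Vale.Agent.P133.H330

open Set

universe u

/-- homeomorphic spaces -/
theorem smallInd_homeo {X Z : Type u} [TopologicalSpace X] [TopologicalSpace Z] (f : Z ≃ₜ X)
    (hX : SmallInd X) : SmallInd Z :=
  smallInd_embedding hX Z f f.isClosedEmbedding

/-- the union of two closed subspaces in the class -/
theorem smallInd_of_union {X : Type u} [TopologicalSpace X] {F G : Set X} (hF : IsClosed F)
    (hG : IsClosed G) (h : F ∪ G = univ) (h1 : SmallInd F) (h2 : SmallInd G) : SmallInd X := by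
  refine smallInd_of_iUnion (F := fun k => if k = 0 then F else G) (fun k => ?_) ?_ fun k => ?_
  · by_cases hk : k = 0
    · simpa [hk] using hF
    · simpa [hk] using hG
  · refine eq_univ_of_forall fun x => ?_
    rcases (show x ∈ F ∪ G by rw [h]; exact mem_univ x) with hx | hx
    · exact mem_iUnion.2 ⟨0, by simpa using hx⟩
    · exact mem_iUnion.2 ⟨1, by simpa using hx⟩
  · by_cases hk : k = 0
    · subst hk; exact h1
    · have e : (if k = 0 then F else G) = G := if_neg hk
      rw [e]
      exact h2

/-- the union of two closed subsets which are in the class -/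
theorem smallInd_union {X : Type u} [TopologicalSpace X] {F G : Set X} (hF : IsClosed F)
    (hG : IsClosed G) (h1 : SmallInd F) (h2 : SmallInd G) : SmallInd (F ∪ G : Set X) := by
  have aux : ∀ {S : Set X} (hS : S ⊆ F ∪ G), SmallInd S →
      SmallInd (Subtype.val ⁻¹' S : Set (F ∪ G : Set X)) := by
    intro S hS h
    refine smallInd_embedding h _ (fun z => ⟨z.1.1, z.2⟩) ?_
    refine Topology.IsClosedEmbedding.of_continuous_injective_isClosedMap ?_ ?_ ?_
    · exact Continuous.subtype_mk (continuous_subtype_val.comp continuous_subtype_val) _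
    · intro a b hab
      exact Subtype.ext (Subtype.ext (Subtype.mk.inj hab))
    · intro C hC
      obtain ⟨D, hD, rfl⟩ := isClosed_induced_iff.1 hC
      obtain ⟨E, hE, rfl⟩ := isClosed_induced_iff.1 hD
      refine isClosed_induced_iff.2 ⟨E, hE, ?_⟩
      ext ⟨x, hx⟩
      constructor
      · intro hxE
        exact ⟨⟨⟨x, hS hx⟩, hx⟩, hxE, rfl⟩
      · rintro ⟨z, hz, hzx⟩
        have : z.1.1 = x := Subtype.mk.inj hzx
        change x ∈ E
        rw [← this]
        exact hz
  refine smallInd_of_union (F := Subtype.val ⁻¹' F) (G := Subtype.val ⁻¹' G)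
    (hF.preimage continuous_subtype_val) (hG.preimage continuous_subtype_val) ?_
    (aux subset_union_left h1) (aux subset_union_right h2)
  exact eq_univ_of_forall fun x => x.2

/-- the product of a space in the class with a locally compact Hausdorff space, all of whose
compact subsets have property C -/
theorem smallInd_prod_propC {X Y : Type u} [TopologicalSpace X] [TopologicalSpace Y]
    [LocallyCompactSpace Y] [T2Space Y]
    (hC : ∀ K : Set Y, IsCompact K → Vale.Agent.P133.R2.H778.PropertyC K) (hX : SmallInd X) :
    SmallInd (X × Y) := by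
  refine SmallInd.field (X × Y) Y inferInstance inferInstance hC Prod.snd continuous_snd fun y => ?_
  refine smallInd_homeo ?_ hX
  exact
    { toFun := fun z => z.1.1
      invFun := fun x => ⟨(x, y), rfl⟩
      left_inv := fun z => Subtype.ext (Prod.ext rfl z.2.symm)
      right_inv := fun x => rfl
      continuous_toFun := continuous_fst.comp continuous_subtype_val
      continuous_invFun := Continuous.subtype_mk (by fun_prop) _ }

/-- the product of two spaces whose small transfinite inductive dimension is defined -/
theorem smallInd_prod_tInd {X : Type u} [TopologicalSpace X] (hX : TInd X) :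
    ∀ (Y : Type u) [TopologicalSpace Y], TInd Y → SmallInd (X × Y) := by
  induction hX with
  | intro X K L h hL ih =>
    intro Y _ hY
    induction hY with
    | intro Y K' L' h' hL' ih' =>
      refine smallInd_of fun Z V hZ hV hVZ => ?_
      obtain ⟨⟨x, y⟩, hxV, hxZ⟩ := hVZ
      obtain ⟨A, B, hA, hB, hxA, hyB, hAB⟩ := isOpen_prod_iff.1 hV x y hxV
      obtain ⟨k, U, hU, hxU, hUA, hk⟩ := h x A hA hxA
      obtain ⟨k', W, hW, hyW, hWB, hk'⟩ := h' y B hB hyB
      refine ⟨U ×ˢ W, hU.prod hW, ⟨(x, y), ⟨hxU, hyW⟩, hxZ⟩,
        fun z hz => hAB ⟨hUA hz.1.1, hWB hz.1.2⟩, Or.inr (Or.inr ?_)⟩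
      have hc1 : IsClosed (L k ×ˢ (univ : Set Y)) := by
        rw [← hk]; exact isClosed_frontier.prod isClosed_univ
      have hc2 : IsClosed ((univ : Set X) ×ˢ L' k') := by
        rw [← hk']; exact isClosed_univ.prod isClosed_frontier
      have h1 : SmallInd (L k ×ˢ (univ : Set Y) : Set (X × Y)) :=
        smallInd_homeo ((Homeomorph.Set.prod (L k) (univ : Set Y)).trans
          ((Homeomorph.refl (L k)).prodCongr (Homeomorph.Set.univ Y)))
          (ih k Y (TInd.intro Y K' L' h' hL'))
      have h2 : SmallInd ((univ : Set X) ×ˢ L' k' : Set (X × Y)) :=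
        smallInd_homeo ((Homeomorph.Set.prod (univ : Set X) (L' k')).trans
          ((Homeomorph.Set.univ X).prodCongr (Homeomorph.refl (L' k')))) (ih' k')
      refine smallInd_subset (smallInd_union hc1 hc2 h1 h2)
        (isClosed_closure.sdiff (hU.prod hW)) ?_
      rintro ⟨p, q⟩ ⟨hpq, hn⟩
      have hcl : (p, q) ∈ closure U ×ˢ closure W := by
        rw [← closure_prod_eq]
        exact closure_mono inter_subset_left hpq
      by_cases hp : p ∈ U
      · have hq : q ∉ W := fun hq => hn ⟨hp, hq⟩
        refine Or.inr ⟨mem_univ _, ?_⟩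
        rw [← hk', hW.frontier_eq]
        exact ⟨hcl.2, hq⟩
      · refine Or.inl ⟨?_, mem_univ _⟩
        rw [← hk, hU.frontier_eq]
        exact ⟨hcl.1, hp⟩

end Vale.Agent.P133.H330
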