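import Vale.Agent.P133.H330.TopPieces

/-!
P133 (helper330): supports of elements and the way-below relation in the primitive ideal space.
-/

open scoped ComplexOrder

namespace Vale.Agent.P133.H330

open Vale.Agent.P133 Vale.Agent.P133F Vale.Agent.P133.Statement Vale.Agent.P133.H832
  Vale.Agent.P133.H681 Vale.Agent.P133.R2 TopologicalSpace

universe u

section

variable {X : Type u} [TopologicalSpace X] {A : Type u} [NonUnitalCStarAlgebra A] [PartialOrder A]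
  [StarOrderedRing A]

omit [PartialOrder A] [StarOrderedRing A] in
/-- directed unions of open sets -/
theorem exists_near {κ : Type u} [Nonempty κ] {e : Opens X → Submodule ℂ A}
    (he : ∀ O, IsClosedIdeal (e O))
    (hs : ∀ I, IsClosedIdeal I → ∃ O, e O = I) (hle : ∀ O O', e O ≤ e O' ↔ O ≤ O')
    {O : κ → Opens X} (hO : Directed (· ≤ ·) O) {U : Opens X} (hU : U ≤ ⨆ i, O i) {a : A}
    (ha : a ∈ e U) {δ : ℝ} (hδ : 0 < δ) : ∃ i, ∃ z ∈ e (O i), ‖a - z‖ < δ := by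
  have hmono : Directed (· ≤ ·) fun i => e (O i) := fun i j => by
    obtain ⟨k, h1, h2⟩ := hO i j
    exact ⟨k, (hle _ _).2 h1, (hle _ _).2 h2⟩
  have hm : ∀ x, x ∈ (⨆ i, e (O i)) ↔ ∃ i, x ∈ e (O i) := fun x =>
    Submodule.mem_iSup_of_directed _ hmono
  have hcl : IsClosedIdeal (⨆ i, e (O i)).topologicalClosure := isClosedIdeal_closure fun b x hx => by
    obtain ⟨i, hi⟩ := (hm x).1 hx
    exact ⟨(hm _).2 ⟨i, ((he _).2 b x hi).1⟩, (hm _).2 ⟨i, ((he _).2 b x hi).2⟩⟩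
  have h1 : a ∈ (⨆ i, e (O i)).topologicalClosure := by
    obtain ⟨W, hW⟩ := hs _ hcl
    rw [← hW]
    refine (hle _ _).2 (hU.trans (iSup_le fun i => ?_)) ha
    rw [← hle, hW]
    exact (le_iSup (fun i => e (O i)) i).trans (Submodule.le_topologicalClosure _)
  obtain ⟨z, hz, hzn⟩ := Metric.mem_closure_iff.1
    (show a ∈ closure ((⨆ i, e (O i) : Submodule ℂ A) : Set A) from h1) δ hδ
  obtain ⟨i, hi⟩ := (hm z).1 hz
  exact ⟨i, z, hi, by rwa [dist_eq_norm] at hzn⟩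

/-- the way-below relation, for cuts of an element of the ideal -/
theorem exists_cut_mem {κ : Type u} [Nonempty κ] {e : Opens X → Submodule ℂ A}
    (he : ∀ O, IsClosedIdeal (e O))
    (hs : ∀ I, IsClosedIdeal I → ∃ O, e O = I) (hle : ∀ O O', e O ≤ e O' ↔ O ≤ O')
    {O : κ → Opens X} (hO : Directed (· ≤ ·) O) {U : Opens X} (hU : U ≤ ⨆ i, O i) {a : A}
    (ha : 0 ≤ a) (haU : a ∈ e U) {δ : ℝ} (hδ : 0 < δ) : ∃ i, R2.H28.cut a δ ∈ e (O i) := by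
  obtain ⟨i, z, hz, hn⟩ := exists_near he hs hle hO hU haU hδ
  exact ⟨i, (he _).cut_mem ha hz hn⟩

/-- the way-below relation, for two cuts -/
theorem exists_cut_mem' {κ : Type u} [Nonempty κ] {e : Opens X → Submodule ℂ A}
    (he : ∀ O, IsClosedIdeal (e O))
    (hs : ∀ I, IsClosedIdeal I → ∃ O, e O = I) (hle : ∀ O O', e O ≤ e O' ↔ O ≤ O')
    {O : κ → Opens X} (hO : Directed (· ≤ ·) O) {U : Opens X} (hU : U ≤ ⨆ i, O i) {b : A}
    (hb : 0 ≤ b) {s t : ℝ} (hs0 : 0 < s) (hst : s < t) (hbU : R2.H28.cut b s ∈ e U) :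
    ∃ i, R2.H28.cut b t ∈ e (O i) := by
  obtain ⟨i, z, hz, hn⟩ := exists_near he hs hle hO hU hbU (sub_pos.2 hst)
  refine ⟨i, (he _).cut_mem hb hz ?_⟩
  have h1 := R2.H28.norm_cut_sub_le hb hs0
  calc ‖b - z‖ = ‖(R2.H28.cut b s - z) - (R2.H28.cut b s - b)‖ := by congr 1; abel
    _ ≤ ‖R2.H28.cut b s - z‖ + ‖R2.H28.cut b s - b‖ := norm_sub_le _ _
    _ < (t - s) + s := add_lt_add_of_lt_of_le hn h1
    _ = t := by ring

/-- spaces of closed ideals are core-compact -/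
theorem core_compact (hX : OpenSets X A) (x : X) (U : Set X) (hU : IsOpen U) (hx : x ∈ U) :
    ∃ V : Set X, IsOpen V ∧ x ∈ V ∧ V ⊆ U ∧ ∀ F : Set (Set X), F.Nonempty →
      DirectedOn (· ⊆ ·) F → (∀ W ∈ F, IsOpen W) → U ⊆ ⋃₀ F → ∃ W ∈ F, V ⊆ W := by
  obtain ⟨e, he, hs, hle⟩ := hX
  choose supp hsupp using exists_supp he hs hle (A := A)
  -- all supports of cuts of elements of the ideal
  obtain ⟨a, ha, haU, δ, hδ, hxa⟩ : ∃ a : A, 0 ≤ a ∧ a ∈ e ⟨U, hU⟩ ∧ ∃ δ : ℝ, 0 < δ ∧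
      x ∈ supp (R2.H28.cut a δ) := by
    by_contra hno
    push Not at hno
    let W : Opens X := ⨆ p : {p : A × ℝ // 0 ≤ p.1 ∧ p.1 ∈ e ⟨U, hU⟩ ∧ 0 < p.2},
      supp (R2.H28.cut p.1.1 p.1.2)
    have h1 : x ∉ W := by
      intro h2
      obtain ⟨p, hp⟩ := Opens.mem_iSup.1 h2
      exact hno p.1.1 p.2.1 p.2.2.1 p.1.2 p.2.2.2 hp
    have h2 : (⟨U, hU⟩ : Opens X) ≤ W := by
      rw [← hle]
      intro y hy
      refine (he W).of_star_mul_self ((he W).lim fun ε hε => ?_)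
      have h3 : star y * y ∈ e ⟨U, hU⟩ := ((he _).2 _ _ hy).1
      refine ⟨R2.H28.cut (star y * y) (ε / 2), (hsupp _ _).2 (le_iSup
        (fun p : {p : A × ℝ // 0 ≤ p.1 ∧ p.1 ∈ e ⟨U, hU⟩ ∧ 0 < p.2} =>
          supp (R2.H28.cut p.1.1 p.1.2)) ⟨(star y * y, ε / 2), star_mul_self_nonneg y, h3,
            half_pos hε⟩), ?_⟩
      exact (R2.H28.norm_cut_sub_le (star_mul_self_nonneg y) (half_pos hε)).trans_lt
        (half_lt_self hε)
    exact h1 (h2 hx)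
  refine ⟨supp (R2.H28.cut a δ), (supp (R2.H28.cut a δ)).2, hxa, ?_, ?_⟩
  · refine (hsupp (R2.H28.cut a δ) ⟨U, hU⟩).1 ((he _).cut_mem ha haU ?_)
    rw [sub_self, norm_zero]
    exact hδ
  · intro F hF hdir hop hUF
    have : Nonempty F := hF.to_subtype
    have h1 : Directed (· ≤ ·) fun W : F => (⟨W.1, hop W.1 W.2⟩ : Opens X) := by
      intro W W'
      obtain ⟨Z, hZ, h1, h2⟩ := hdir W.1 W.2 W'.1 W'.2
      exact ⟨⟨Z, hZ⟩, h1, h2⟩
    have h2 : (⟨U, hU⟩ : Opens X) ≤ ⨆ W : F, ⟨W.1, hop W.1 W.2⟩ := by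
      intro y hy
      obtain ⟨W, hW, hyW⟩ := hUF hy
      exact Opens.mem_iSup.2 ⟨⟨W, hW⟩, hyW⟩
    obtain ⟨W, hW⟩ := exists_cut_mem he hs hle h1 h2 ha haU hδ
    exact ⟨W.1, W.2, (hsupp _ _).1 hW⟩

end

end Vale.Agent.P133.H330
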