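import Vale.Agent.P133.H330.TopDefs
import Vale.Agent.P133.W634.T

/-!
P133 (helper330): the class `SmallInd` with weakly infinite-dimensional Hausdorff spaces.
-/

namespace Vale.Agent.P133.H330

open TopologicalSpace

universe u

/-- The least class of spaces such that `X` is in the class in each of the following five cases.
(1) Every nonempty relatively open subset of every closed subset `Y` of `X` contains a nonempty
relatively open subset `U ∩ Y` which is compact, or is in the class, or whose boundary in `Y` is in
the class (the members of the class that occur are the sets `L k`). (2) There are countably many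
subspaces `F k` in the class, which are closed, or locally closed if `X` is second countable, such
that every nonempty relatively open subset of a closed subset of `X` meets one of them. (3) The
open subsets of `X` are totally ordered. (4) There is a continuous map from `X` to a locally
compact Hausdorff space `Y`, such that all compact subsets of `Y` have property C and all fibres of
the map are in the class. (5) `X` is Hausdorff and all compact subsets of `X` are weakly
infinite-dimensional. -/
inductive SmallIndW : (X : Type u) → [TopologicalSpace X] → Prop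
  | intro (X : Type u) [TopologicalSpace X] (K : Type u) (L : K → Set X)
    (h : ∀ Y V : Set X, IsClosed Y → IsOpen V → (V ∩ Y).Nonempty →
      ∃ U : Set X, IsOpen U ∧ (U ∩ Y).Nonempty ∧ U ∩ Y ⊆ V ∧
        (IsCompact (U ∩ Y) ∨ ∃ k : K, U ∩ Y = L k ∨ closure (U ∩ Y) \ U = L k))
    (hL : ∀ k, SmallIndW (L k)) : SmallIndW X
  | cover (X : Type u) [TopologicalSpace X] (F : ℕ → Set X)
    (hF : (∀ k, IsClosed (F k)) ∨ SecondCountableTopology X ∧ ∀ k, IsLocallyClosed (F k))
    (h : ∀ Y V : Set X, IsClosed Y → IsOpen V → (V ∩ Y).Nonempty →
      ∃ k, (V ∩ Y ∩ F k).Nonempty)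
    (hS : ∀ k, SmallIndW (F k)) : SmallIndW X
  | chain (X : Type u) [TopologicalSpace X]
    (h : ∀ U V : Set X, IsOpen U → IsOpen V → U ⊆ V ∨ V ⊆ U) : SmallIndW X
  | field (X Y : Type u) [TopologicalSpace X] [TopologicalSpace Y] (hYl : LocallyCompactSpace Y)
    (hY2 : T2Space Y) (hC : ∀ K : Set Y, IsCompact K → Vale.Agent.P133.R2.H778.PropertyC K)
    (f : X → Y) (hf : Continuous f) (hS : ∀ y, SmallIndW (f ⁻¹' {y})) : SmallIndW X
  | wid (X : Type u) [TopologicalSpace X] (hX2 : T2Space X)
    (hW : ∀ K : Set X, IsCompact K → Vale.Agent.P133.W634.WeaklyInfDim K) : SmallIndW X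

end Vale.Agent.P133.H330
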