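import Vale.Agent.P133.H330.Top
import Vale.Agent.P133.H330.WidDefs
import Vale.Agent.P133.W634.H665.Final
import Vale.Agent.P133.W634.PIn
import Vale.Agent.P133.W634.Assembly

/-!
P133 (helper330): the class `SmallInd` with weakly infinite-dimensional Hausdorff spaces.
-/

open scoped ComplexOrder CStarAlgebra

namespace Vale.Agent.P133.H330

open Vale.Agent.P133 Vale.Agent.P133F Vale.Agent.P133.Statement Vale.Agent.P133.H832
  Vale.Agent.P133.H681 TopologicalSpace

universe u

/-- the class without weakly infinite-dimensional spaces is contained in the larger class -/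
theorem smallIndW_of_smallInd {X : Type u} [TopologicalSpace X] (hX : SmallInd X) :
    SmallIndW X := by
  induction hX with
  | intro X K L h hL ih => exact SmallIndW.intro X K L h ih
  | cover X F hF h hS ih => exact SmallIndW.cover X F hF h ih
  | chain X h => exact SmallIndW.chain X h
  | field X Y hYl hY2 hC f hf hS ih => exact SmallIndW.field X Y hYl hY2 hC f hf ih

section main

theorem eltPI_of_smallIndW {X : Type u} [TopologicalSpace X] (hX : SmallIndW X) :
    ∀ (A : Type u) [NonUnitalCStarAlgebra A] [PartialOrder A] [StarOrderedRing A] (n : ℕ),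
      WPI A n → OpenSets X A → EltPI A := by
  induction hX with
  | intro X K L h hL ih =>
    intro A _ _ _ n hn hXA
    refine eltPI_of_boundaries hn hXA fun Y V hY hV hVY => ?_
    obtain ⟨U, hU, hUY, hUV, hk⟩ := h Y V hY hV hVY
    refine ⟨U, hU, hUY, hUV, ?_⟩
    rcases hk with hk | ⟨k, hk | hk⟩
    · exact Or.inl hk
    · refine Or.inr (Or.inl fun C _ _ _ hC hCX => ?_)
      rw [hk] at hCX
      exact ih k C n hC hCX
    · refine Or.inr (Or.inr fun C _ _ _ hC hCX => ?_)
      rw [hk] at hCX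
      exact ih k C n hC hCX
  | cover X F hF h hS ih =>
    intro A _ _ _ n hn hXA
    rcases hF with hF | ⟨hX, hF⟩
    · exact eltPI_of_cover hn hXA hF h fun k C _ _ _ hC hCX => ih k C n hC hCX
    · exact eltPI_of_pieces_top hn hXA hF h fun k C _ _ _ hC hCX => ih k C n hC hCX
  | chain X h =>
    intro A _ _ _ n hn hXA
    exact eltPI_of_chain hn hXA h
  | field X Y hYl hY2 hC f hf hS ih =>
    intro A _ _ _ n hn hXA
    exact eltPI_of_field hYl hY2 hC hf hn hXA fun y C _ _ _ hC hCX => ih y C n hC hCX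
  | wid X hX2 hW =>
    intro A _ _ _ n hn hXA
    exact eltPI_of A ((Vale.Agent.P133.W634.coincide_openSets Vale.Agent.P133.W634.pStmt
      Vale.Agent.P133.W634.aStmt hW hXA).1.1 (wpi_of_elt hn))

theorem coincide_of_smallIndW {X : Type u} [TopologicalSpace X] (hX : SmallIndW X)
    {A : Type u} [NonUnitalCStarAlgebra A] [PartialOrder A] [StarOrderedRing A]
    (hXA : OpenSets X A) : Coincide A := by
  refine wpi_iff_pi_of fun hW => ?_
  obtain ⟨n, hn⟩ := wpi_elementwise hW
  exact pi_of_eltPI (eltPI_of_smallIndW hX A n hn hXA)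

end main

section examples

theorem smallIndW_of {X : Type u} [TopologicalSpace X]
    (h : ∀ Y V : Set X, IsClosed Y → IsOpen V → (V ∩ Y).Nonempty →
      ∃ U : Set X, IsOpen U ∧ (U ∩ Y).Nonempty ∧ U ∩ Y ⊆ V ∧
        (IsCompact (U ∩ Y) ∨ SmallIndW (U ∩ Y : Set X) ∨
          SmallIndW (closure (U ∩ Y) \ U : Set X))) : SmallIndW X := by
  refine SmallIndW.intro X {S : Set X // SmallIndW S} (fun k => k.1) (fun Y V hY hV hVY => ?_)
    fun k => k.2
  obtain ⟨U, hU, h1, h2, h3⟩ := h Y V hY hV hVY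
  refine ⟨U, hU, h1, h2, h3.imp id fun h3 => ?_⟩
  rcases h3 with h3 | h3
  · exact ⟨⟨_, h3⟩, Or.inl rfl⟩
  · exact ⟨⟨_, h3⟩, Or.inr rfl⟩

/-- weakly infinite-dimensional compact subsets -/
theorem wid_preimage {X Z : Type u} [TopologicalSpace X] [TopologicalSpace Z] {f : Z → X}
    (hf : Topology.IsEmbedding f)
    (h : ∀ K : Set X, IsCompact K → Vale.Agent.P133.W634.WeaklyInfDim K) (K : Set Z)
    (hK : IsCompact K) : Vale.Agent.P133.W634.WeaklyInfDim K :=
  (h (f '' K) (hK.image hf.continuous)).of_isClosedEmbedding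
    (hf.homeomorphImage K).isClosedEmbedding

/-- closed subspaces -/
theorem smallIndW_embedding {X : Type u} [TopologicalSpace X] (hX : SmallIndW X) :
    ∀ (Z : Type u) [TopologicalSpace Z] (f : Z → X), Topology.IsClosedEmbedding f →
      SmallIndW Z := by
  induction hX with
  | intro X K L h hL ih =>
    intro Z _ f hf
    refine SmallIndW.intro Z K (fun k => f ⁻¹' (L k)) (fun Y V hY hV hVY => ?_) fun k => ?_
    · obtain ⟨V', hV', rfl⟩ := hf.isInducing.isOpen_iff.1 hV
      obtain ⟨y, hyV, hyY⟩ := hVY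
      obtain ⟨U, hU, ⟨w, hwU, z, hz, hzw⟩, hUV, hk⟩ := h (f '' Y) V' (hf.isClosedMap Y hY) hV'
        ⟨f y, hyV, y, hyY, rfl⟩
      subst hzw
      have h1 : f '' (f ⁻¹' U ∩ Y) = U ∩ f '' Y := by
        ext t
        constructor
        · rintro ⟨s, ⟨hs1, hs2⟩, rfl⟩
          exact ⟨hs1, s, hs2, rfl⟩
        · rintro ⟨hs1, s, hs2, rfl⟩
          exact ⟨s, ⟨hs1, hs2⟩, rfl⟩
      refine ⟨f ⁻¹' U, hU.preimage hf.continuous, ⟨z, hwU, hz⟩, ?_, ?_⟩
      · rintro t ⟨ht1, ht2⟩
        exact hUV ⟨ht1, t, ht2, rfl⟩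
      · rcases hk with hk | ⟨k, hk | hk⟩
        · left
          rw [hf.isInducing.isCompact_iff, h1]
          exact hk
        · right
          refine ⟨k, Or.inl ?_⟩
          rw [← hk, ← h1, Set.preimage_image_eq _ hf.injective]
        right
        refine ⟨k, Or.inr ?_⟩
        rw [← hk, ← h1, hf.closure_image_eq]
        ext t
        constructor
        · rintro ⟨h2, h3⟩
          exact ⟨⟨t, h2, rfl⟩, h3⟩
        · rintro ⟨⟨s, h2, h4⟩, h3⟩
          rw [hf.injective h4] at h2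
          exact ⟨h2, h3⟩
    · exact ih k _ (fun x : f ⁻¹' (L k) => (⟨f x.1, x.2⟩ : L k)) (hf.restrictPreimage (L k))
  | cover X F hF h hS ih =>
    intro Z _ f hf
    refine SmallIndW.cover Z (fun k => f ⁻¹' (F k)) (cover_preimage hf.isInducing hF)
      (fun Y V hY hV hVY => ?_) fun k => ?_
    · obtain ⟨V', hV', rfl⟩ := hf.isInducing.isOpen_iff.1 hV
      obtain ⟨y, hyV, hyY⟩ := hVY
      obtain ⟨k, _, ⟨hz1, z, hz, rfl⟩, hz2⟩ := h (f '' Y) V' (hf.isClosedMap Y hY) hV'
        ⟨f y, hyV, y, hyY, rfl⟩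
      exact ⟨k, z, ⟨hz1, hz⟩, hz2⟩
    · exact ih k _ (fun x : f ⁻¹' (F k) => (⟨f x.1, x.2⟩ : F k)) (hf.restrictPreimage (F k))
  | chain X h =>
    intro Z _ f hf
    exact SmallIndW.chain Z (chain_preimage hf.isInducing h)
  | field X Y hYl hY2 hC g hg hS ih =>
    intro Z _ f hf
    exact SmallIndW.field Z Y hYl hY2 hC (g ∘ f) (hg.comp hf.continuous) fun y =>
      ih y _ (fun x : f ⁻¹' (g ⁻¹' {y}) => (⟨f x.1, x.2⟩ : g ⁻¹' {y}))
        (hf.restrictPreimage (g ⁻¹' {y}))
  | wid X hX2 hW =>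
    intro Z _ f hf
    exact SmallIndW.wid Z hf.isEmbedding.t2Space (wid_preimage hf.isEmbedding hW)

/-- open subspaces -/
theorem smallIndW_openEmbedding {X : Type u} [TopologicalSpace X] (hX : SmallIndW X) :
    ∀ (Z : Type u) [TopologicalSpace Z] (f : Z → X), Topology.IsOpenEmbedding f →
      SmallIndW Z := by
  induction hX with
  | intro X K L h hL ih =>
    intro Z _ f hf
    refine SmallIndW.intro Z K (fun k => f ⁻¹' (L k)) (fun Y V hY hV hVY => ?_) fun k => ?_
    · have hcl : ∀ S : Set X, f ⁻¹' (closure S) = closure (f ⁻¹' S) := fun S =>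
        hf.isOpenMap.preimage_closure_eq_closure_preimage hf.continuous S
      have hYc : f ⁻¹' (closure (f '' Y)) = Y := by
        rw [hcl, Set.preimage_image_eq _ hf.injective, hY.closure_eq]
      obtain ⟨y, hyV, hyY⟩ := hVY
      obtain ⟨U, hU, ⟨w, hwU, hwY⟩, hUV, hk⟩ := h (closure (f '' Y)) (f '' V) isClosed_closure
        (hf.isOpenMap V hV) ⟨f y, ⟨y, hyV, rfl⟩, subset_closure ⟨y, hyY, rfl⟩⟩
      have h0 : f ⁻¹' (U ∩ closure (f '' Y)) = f ⁻¹' U ∩ Y := by
        rw [Set.preimage_inter, hYc]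
      have h1 : f '' (f ⁻¹' U ∩ Y) = U ∩ closure (f '' Y) := by
        rw [← h0, Set.image_preimage_eq_inter_range]
        refine Set.inter_eq_left.2 fun t ht => ?_
        obtain ⟨v, -, rfl⟩ := hUV ht
        exact ⟨v, rfl⟩
      refine ⟨f ⁻¹' U, hU.preimage hf.continuous, ?_, ?_, ?_⟩
      · have h2 : w ∈ f '' (f ⁻¹' U ∩ Y) := by rw [h1]; exact ⟨hwU, hwY⟩
        obtain ⟨z, hz, -⟩ := h2
        exact ⟨z, hz⟩
      · intro t ht
        have h2 : f t ∈ f '' V := hUV (by rw [← h1]; exact ⟨t, ht, rfl⟩)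
        obtain ⟨v, hv, hvt⟩ := h2
        rw [hf.injective hvt] at hv
        exact hv
      · rcases hk with hk | ⟨k, hk | hk⟩
        · left
          rw [hf.isInducing.isCompact_iff, h1]
          exact hk
        · exact Or.inr ⟨k, Or.inl (by rw [← hk, h0])⟩
        right
        refine ⟨k, Or.inr ?_⟩
        rw [← hk, ← h0, ← hcl]
        rfl
    · exact ih k _ (fun x : f ⁻¹' (L k) => (⟨f x.1, x.2⟩ : L k)) (hf.restrictPreimage (L k))
  | cover X F hF h hS ih =>
    intro Z _ f hf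
    refine SmallIndW.cover Z (fun k => f ⁻¹' (F k)) (cover_preimage hf.isInducing hF)
      (fun Y V hY hV hVY => ?_) fun k => ?_
    · have hYc : f ⁻¹' (closure (f '' Y)) = Y := by
        rw [hf.isOpenMap.preimage_closure_eq_closure_preimage hf.continuous,
          Set.preimage_image_eq _ hf.injective, hY.closure_eq]
      obtain ⟨y, hyV, hyY⟩ := hVY
      obtain ⟨k, _, ⟨⟨z, hz, rfl⟩, hz1⟩, hz2⟩ := h (closure (f '' Y)) (f '' V) isClosed_closure
        (hf.isOpenMap V hV) ⟨f y, ⟨y, hyV, rfl⟩, subset_closure ⟨y, hyY, rfl⟩⟩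
      refine ⟨k, z, ⟨hz, ?_⟩, hz2⟩
      rw [← hYc]
      exact hz1
    · exact ih k _ (fun x : f ⁻¹' (F k) => (⟨f x.1, x.2⟩ : F k)) (hf.restrictPreimage (F k))
  | chain X h =>
    intro Z _ f hf
    exact SmallIndW.chain Z (chain_preimage hf.isInducing h)
  | field X Y hYl hY2 hC g hg hS ih =>
    intro Z _ f hf
    exact SmallIndW.field Z Y hYl hY2 hC (g ∘ f) (hg.comp hf.continuous) fun y =>
      ih y _ (fun x : f ⁻¹' (g ⁻¹' {y}) => (⟨f x.1, x.2⟩ : g ⁻¹' {y}))
        (hf.restrictPreimage (g ⁻¹' {y}))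
  | wid X hX2 hW =>
    intro Z _ f hf
    exact SmallIndW.wid Z hf.isEmbedding.t2Space (wid_preimage hf.isEmbedding hW)

/-- closed subsets of subsets -/
theorem smallIndW_subset {X : Type u} [TopologicalSpace X] {S T : Set X} (hT : SmallIndW T)
    (hS : IsClosed S) (hST : S ⊆ T) : SmallIndW S := by
  refine smallIndW_embedding hT S (Set.inclusion hST) ⟨Topology.IsEmbedding.inclusion hST, ?_⟩
  have h1 : Set.range (Set.inclusion hST) = Subtype.val ⁻¹' S := by
    rw [Set.range_inclusion]; rfl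
  rw [h1]
  exact hS.preimage continuous_subtype_val

/-- open subsets of subsets -/
theorem smallIndW_open {X : Type u} [TopologicalSpace X] {U T : Set X} (hT : SmallIndW T)
    (hU : IsOpen U) : SmallIndW (U ∩ T : Set X) := by
  refine smallIndW_openEmbedding hT (U ∩ T : Set X) (Set.inclusion Set.inter_subset_right)
    ⟨Topology.IsEmbedding.inclusion Set.inter_subset_right, ?_⟩
  have h1 : Set.range (Set.inclusion (Set.inter_subset_right : U ∩ T ⊆ T)) =
      Subtype.val ⁻¹' U := by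
    rw [Set.range_inclusion]
    ext x
    exact ⟨fun h => h.1, fun h => ⟨h, x.2⟩⟩
  rw [h1]
  exact hU.preimage continuous_subtype_val

/-- the class is local: `X` is in the class if every nonempty closed subset has a nonempty
relatively open subset in the class -/
theorem smallIndW_of_local {X : Type u} [TopologicalSpace X]
    (h : ∀ Y : Set X, IsClosed Y → Y.Nonempty →
      ∃ U : Set X, IsOpen U ∧ (U ∩ Y).Nonempty ∧ SmallIndW (U ∩ Y : Set X)) : SmallIndW X := by
  refine smallIndW_of fun Y V hY hV hVY => ?_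
  obtain ⟨U, hU, ⟨x, hxU, hx⟩, hS⟩ := h (closure (V ∩ Y)) isClosed_closure hVY.closure
  obtain ⟨y, hyU, hyV, hyY⟩ := mem_closure_iff.1 hx U hU hxU
  refine ⟨U ∩ V, hU.inter hV, ⟨y, ⟨hyU, hyV⟩, hyY⟩, fun t ht => ht.1.2, Or.inr (Or.inl ?_)⟩
  have h1 : U ∩ V ∩ Y = V ∩ (U ∩ closure (V ∩ Y)) := by
    ext t
    constructor
    · rintro ⟨⟨h1, h2⟩, h3⟩
      exact ⟨h2, h1, subset_closure ⟨h2, h3⟩⟩
    · rintro ⟨h1, h2, h3⟩
      exact ⟨⟨h2, h1⟩, closure_minimal Set.inter_subset_right hY h3⟩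
  rw [h1]
  exact smallIndW_open hS hV

/-- extensions -/
theorem smallIndW_of_ext {X : Type u} [TopologicalSpace X] {F : Set X} (hF : IsClosed F)
    (h1 : SmallIndW F) (h2 : SmallIndW (Fᶜ : Set X)) : SmallIndW X := by
  refine smallIndW_of_local fun Y hY hYn => ?_
  by_cases h : Y ⊆ F
  · refine ⟨Set.univ, isOpen_univ, by rwa [Set.univ_inter], ?_⟩
    rw [Set.univ_inter]
    exact smallIndW_subset h1 hY h
  · obtain ⟨y, hyY, hyF⟩ := Set.not_subset.1 h
    refine ⟨Fᶜ, hF.isOpen_compl, ⟨y, hyF, hyY⟩, ?_⟩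
    refine smallIndW_embedding h2 _ (Set.inclusion Set.inter_subset_left)
      ⟨Topology.IsEmbedding.inclusion Set.inter_subset_left, ?_⟩
    rw [Set.range_inclusion]
    have h3 : {x : (Fᶜ : Set X) | x.1 ∈ Fᶜ ∩ Y} = Subtype.val ⁻¹' Y := by
      ext x
      exact ⟨fun h => h.2, fun h => ⟨x.2, h⟩⟩
    rw [h3]
    exact hY.preimage continuous_subtype_val

/-- countable unions of closed subspaces of the class -/
theorem smallIndW_of_iUnion {X : Type u} [TopologicalSpace X] {F : ℕ → Set X}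
    (hF : ∀ k, IsClosed (F k)) (h : ⋃ k, F k = Set.univ) (hS : ∀ k, SmallIndW (F k)) :
    SmallIndW X := by
  refine SmallIndW.cover X F (Or.inl hF) (fun Y V hY hV hVY => ?_) hS
  obtain ⟨y, hy⟩ := hVY
  obtain ⟨k, hk⟩ := Set.mem_iUnion.1 (show y ∈ ⋃ k, F k by rw [h]; exact Set.mem_univ y)
  exact ⟨k, y, hy, hk⟩

/-- second countable spaces that are countable unions of locally closed subspaces of the class -/
theorem smallIndW_of_iUnion' {X : Type u} [TopologicalSpace X] (hX : SecondCountableTopology X)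
    {F : ℕ → Set X} (hF : ∀ k, IsLocallyClosed (F k)) (h : ⋃ k, F k = Set.univ)
    (hS : ∀ k, SmallIndW (F k)) : SmallIndW X := by
  refine SmallIndW.cover X F (Or.inr ⟨hX, hF⟩) (fun Y V hY hV hVY => ?_) hS
  obtain ⟨y, hy⟩ := hVY
  obtain ⟨k, hk⟩ := Set.mem_iUnion.1 (show y ∈ ⋃ k, F k by rw [h]; exact Set.mem_univ y)
  exact ⟨k, y, hy, hk⟩

end examples

end Vale.Agent.P133.H330
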